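import Mathlib

/-!
Involutions of the second kind of matrix algebras over division algebras are adjoint to hermitian
forms.
-/

open Matrix

namespace Vale.Agent.P011Z.Cl.Lanx

variable {E D : Type} [Field E] [DivisionRing D] [Algebra E D] [FiniteDimensional E D]
  {κ : Type} [Fintype κ] [DecidableEq κ]

theorem unit_of_left {X Y : Matrix κ κ D} (E : Type) [Field E] [Algebra E D]
    [FiniteDimensional E D] (h : X * Y = 1) : IsUnit X := by
  have : IsArtinianRing (Matrix κ κ D) := IsArtinianRing.of_finite E _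
  exact IsUnit.of_mul_eq_one Y h

/-- A nonzero matrix which intertwines the matrix units with another family is invertible. -/
theorem unit_of_inter (E : Type) [Field E] [Algebra E D] [FiniteDimensional E D]
    {F : κ → κ → Matrix κ κ D} {u : Matrix κ κ D} (hu : u ≠ 0)
    (h : ∀ i j, F i j * u = u * single i j 1) : IsUnit u := by
  have h1 : Function.Injective (LinearMap.mulLeft E u) := by
    rw [← LinearMap.ker_eq_bot, LinearMap.ker_eq_bot']
    intro X hX
    have hX' : u * X = 0 := hX
    by_contra h0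
    obtain ⟨a, b, hab⟩ : ∃ a b, X a b ≠ 0 := by
      by_contra hc
      push Not at hc
      exact h0 (Matrix.ext hc)
    refine hu ?_
    have h2 : ∀ i, u * single i i 1 = 0 := by
      intro i
      have h3 : (single i i 1 : Matrix κ κ D) = single i a 1 * X * single b i (X a b)⁻¹ := by
        rw [single_mul_mul_single, one_mul, mul_inv_cancel₀ hab]
      rw [h3, ← mul_assoc, ← mul_assoc, ← h, mul_assoc (F i a), hX', mul_zero, zero_mul]
    calc u = u * ∑ i, single i i 1 := by rw [sum_single_one, mul_one]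
      _ = 0 := by rw [Finset.mul_sum]; exact Finset.sum_eq_zero fun i _ => h2 i
  obtain ⟨w, hw⟩ := (LinearMap.injective_iff_surjective.1 h1) 1
  exact unit_of_left E (show u * w = 1 from hw)

variable [StarRing E] {A : Type} [Ring A] [StarRing A] [Algebra E A] [StarModule E A]

theorem exists_inv [Nonempty κ] (φ : A ≃ₐ[E] Matrix κ κ D) {θ : E} (hθ0 : θ ≠ 0)
    (hθ : star θ = -θ) : ∃ (_ : StarRing D) (_ : StarModule E D) (u : Matrix κ κ D),
      IsUnit u ∧ uᴴ = u ∧ ∀ y : A, φ (star y) * u = u * (φ y)ᴴ := by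
  obtain ⟨o⟩ := ‹Nonempty κ›
  obtain ⟨σ, hσ⟩ : ∃ σ : Matrix κ κ D → Matrix κ κ D, ∀ X, σ X = φ (star (φ.symm X)) :=
    ⟨_, fun _ => rfl⟩
  have σadd : ∀ X Y, σ (X + Y) = σ X + σ Y := fun X Y => by simp only [hσ, map_add, star_add]
  have σmul : ∀ X Y, σ (X * Y) = σ Y * σ X := fun X Y => by simp only [hσ, map_mul, star_mul]
  have σσ : ∀ X, σ (σ X) = X := fun X => by simp [hσ]
  have σ0 : σ 0 = 0 := by simp [hσ]
  have σ1 : σ 1 = 1 := by simp [hσ]
  have σsm : ∀ (c : E) X, σ (c • X) = star c • σ X := fun c X => by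
    simp only [hσ, map_smul, star_smul]
  obtain ⟨F, hF⟩ : ∃ F : κ → κ → Matrix κ κ D, ∀ i j, F i j = σ (single j i 1) := ⟨_, fun _ _ => rfl⟩
  have hFo : F o o ≠ 0 := by
    intro h
    have h1 := congrArg σ h
    rw [hF, σσ, σ0] at h1
    have h2 := congrFun (congrFun h1 o) o
    simp at h2
  obtain ⟨a, b, hab⟩ : ∃ a b, F o o a b ≠ 0 := by
    by_contra hc
    push Not at hc
    exact hFo (Matrix.ext hc)
  have hFF : ∀ i j k l, F i j * F k l = if j = k then F i l else 0 := by
    intro i j k l
    rw [hF, hF, ← σmul]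
    split_ifs with h
    · rw [h, single_mul_single_same, one_mul, hF]
    · rw [single_mul_single_of_ne _ _ _ _ (Ne.symm h), σ0]
  obtain ⟨u0, hu0⟩ : ∃ u0 : Matrix κ κ D, u0 = ∑ i, F i o * single b i 1 := ⟨_, rfl⟩
  have h0r : ∀ k l, u0 * single k l 1 = F k o * single b l 1 := by
    intro k l
    rw [hu0, Finset.sum_mul, Finset.sum_eq_single k]
    · rw [mul_assoc, single_mul_single_same, one_mul]
    · intro i _ hi
      rw [mul_assoc, single_mul_single_of_ne _ _ _ _ hi, mul_zero]
    · intro h
      exact absurd (Finset.mem_univ k) h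
  have h0 : ∀ i j, F i j * u0 = u0 * single i j 1 := by
    intro i j
    rw [h0r, hu0, Finset.mul_sum, Finset.sum_eq_single j]
    · rw [← mul_assoc, hFF, if_pos rfl]
    · intro k _ hk
      rw [← mul_assoc, hFF, if_neg (Ne.symm hk), zero_mul]
    · intro h
      exact absurd (Finset.mem_univ j) h
  have h00 : u0 ≠ 0 := by
    intro h
    have h1 := h0r o o
    rw [h, zero_mul] at h1
    have h2 := congrFun (congrFun h1 a) o
    rw [mul_single_apply_same, mul_one] at h2
    exact hab h2.symm
  have h1 : ∀ i j, F i j * σ u0 = σ u0 * single i j 1 := by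
    intro i j
    have h := congrArg σ (h0 j i)
    rw [σmul, σmul, hF j i, σσ, ← hF] at h
    exact h.symm
  obtain ⟨u, hu, hσu, hi⟩ : ∃ u : Matrix κ κ D, u ≠ 0 ∧ σ u = u ∧
      ∀ i j, F i j * u = u * single i j 1 := by
    by_cases h : u0 + σ u0 = 0
    · refine ⟨θ • u0, smul_ne_zero hθ0 h00, ?_, fun i j => ?_⟩
      · rw [σsm, hθ, eq_neg_of_add_eq_zero_right h, neg_smul, smul_neg, neg_neg]
      · rw [mul_smul_comm, h0, smul_mul_assoc]
    · refine ⟨_, h, by rw [σadd, σσ, add_comm], fun i j => ?_⟩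
      rw [mul_add, add_mul, h0, h1]
  have hun := unit_of_inter E hu hi
  obtain ⟨w, hw1, hw2⟩ : ∃ w : Matrix κ κ D, u * w = 1 ∧ w * u = 1 := by
    obtain ⟨U, rfl⟩ := hun
    exact ⟨_, U.mul_inv, U.inv_mul⟩
  have hσw : σ w = w := by
    have h := congrArg σ hw1
    rw [σmul, hσu, σ1] at h
    calc σ w = σ w * (u * w) := by rw [hw1, mul_one]
      _ = w := by rw [← mul_assoc, h, one_mul]
  obtain ⟨τ, hτ⟩ : ∃ τ : Matrix κ κ D → Matrix κ κ D, ∀ X, τ X = w * σ X * u := ⟨_, fun _ => rfl⟩
  have τadd : ∀ X Y, τ (X + Y) = τ X + τ Y := fun X Y => by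
    rw [hτ, hτ, hτ, σadd, mul_add, add_mul]
  have τmul : ∀ X Y, τ (X * Y) = τ Y * τ X := fun X Y => by
    rw [hτ, hτ, hτ, σmul]
    calc w * (σ Y * σ X) * u = w * (σ Y * (u * w) * σ X) * u := by rw [hw1, mul_one]
      _ = _ := by simp only [mul_assoc]
  have ττ : ∀ X, τ (τ X) = X := fun X => by
    rw [hτ, hτ, σmul, σmul, σσ, hσu, hσw]
    calc w * (u * (X * w)) * u = (w * u) * X * (w * u) := by simp only [mul_assoc]
      _ = X := by rw [hw2, one_mul, mul_one]
  have τ0 : τ 0 = 0 := by rw [hτ, σ0, mul_zero, zero_mul]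
  have τE : ∀ i j, τ (single i j 1) = single j i 1 := fun i j => by
    rw [hτ, ← hF, mul_assoc, hi, ← mul_assoc, hw2, one_mul]
  have τsm : ∀ (c : E) X, τ (c • X) = star c • τ X := fun c X => by
    rw [hτ, hτ, σsm, mul_smul_comm, smul_mul_assoc]
  have hsc : ∀ d : D, ∃ d' : D, scalar κ d' = τ (scalar κ d) := by
    intro d
    refine mem_range_scalar_iff_commute_single'.2 fun i j => ?_
    have h := mem_range_scalar_iff_commute_single'.1 ⟨d, rfl⟩ j i
    have h' := congrArg τ h.eq
    rw [τmul, τmul, τE] at h'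
    exact h'.symm
  choose st hst using hsc
  have hinj : Function.Injective (scalar κ : D → Matrix κ κ D) := fun d d' h => by
    simpa using congrFun (congrFun h o) o
  let iS : StarRing D :=
    { star := st
      star_involutive := fun d => hinj (by rw [hst, hst, ττ])
      star_mul := fun d d' => hinj (by
        change scalar κ (st (d * d')) = scalar κ (st d' * st d)
        rw [hst, map_mul, map_mul, τmul, hst, hst])
      star_add := fun d d' => hinj (by
        change scalar κ (st (d + d')) = scalar κ (st d + st d')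
        rw [hst, map_add, map_add, τadd, hst, hst]) }
  have hsm : ∀ (c : E) (d : D), scalar κ (c • d) = c • scalar κ d := fun c d => by
    ext i j
    simp [diagonal_apply]
  have iM : StarModule E D := ⟨fun c d => hinj (by
    change scalar κ (st (c • d)) = scalar κ (star c • st d)
    rw [hst, hsm, hsm, τsm, hst])⟩
  have hτH : ∀ X, τ X = Xᴴ := by
    intro X
    induction X using Matrix.induction_on' with
    | h_zero => rw [τ0, conjTranspose_zero]
    | h_add p q hp hq => rw [τadd, conjTranspose_add, hp, hq]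
    | h_std_basis i j d =>
      have h : (single i j d : Matrix κ κ D) = scalar κ d * single i j 1 := by
        ext p q
        simp [diagonal_mul, single_apply]
      rw [conjTranspose_single, h, τmul, τE, ← hst]
      ext p q
      simp only [scalar_apply, mul_diagonal, single_apply, ite_mul, one_mul, zero_mul]
      rfl
  refine ⟨iS, iM, u, hun, ?_, fun y => ?_⟩
  · rw [← hτH, hτ, hσu, hw2, one_mul]
  · rw [← hτH, hτ, hσ, φ.symm_apply_apply, ← mul_assoc, ← mul_assoc, hw1, one_mul]

end Vale.Agent.P011Z.Cl.Lanx
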