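import Vale.Agent.P011Z.Cl.Lan.Div
import Vale.Agent.P011Z.Cl.Lan.Inv
import Vale.Agent.P011Z.Cl.Br0.Alg

/-!
The theorem of Landherr for central simple algebras with a unitary involution.
-/

open Matrix Module
open scoped TensorProduct

namespace Vale.Agent.P011Z.Cl.Lanx

open Vale.Agent.P011.RP

section alg

variable {E A Ω : Type} [Field E] [Ring A] [Algebra E A] [FiniteDimensional E A] [Field Ω]
  {n n' : Type} [Fintype n] [DecidableEq n] [Fintype n'] [DecidableEq n']

theorem central_of_span [Algebra E Ω] (hA : finrank E A = Fintype.card n ^ 2)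
    (F : A →ₐ[E] Matrix n n Ω) (hF : Submodule.span Ω (Set.range F) = ⊤) :
    Algebra.IsCentral E A := by
  refine ⟨fun x hx => ?_⟩
  rw [Subalgebra.mem_center_iff] at hx
  obtain ⟨c, hc⟩ := scalar_of_span hF (X := F x) fun y => by rw [← map_mul, ← map_mul, hx]
  have h1 : (1 : Ω) ⊗ₜ[E] x = c ⊗ₜ[E] (1 : A) := (bij_of_span hA F hF).1 (by
    rw [AlgHom.liftEquiv_tmul, AlgHom.liftEquiv_tmul, one_smul, map_one, hc])
  obtain ⟨l, hl⟩ := Module.Projective.exists_dual_eq_one E (one_ne_zero : (1 : Ω) ≠ 0)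
  have h2 := congrArg (fun z => TensorProduct.lid E A (l.rTensor A z)) h1
  simp only [LinearMap.rTensor_tmul, TensorProduct.lid_tmul, hl, one_smul] at h2
  rw [Algebra.mem_bot]
  exact ⟨l c, by rw [h2, Algebra.algebraMap_eq_smul_one]⟩

theorem unit_of_det [Algebra E Ω] (hA : finrank E A = Fintype.card n ^ 2)
    (F : A →ₐ[E] Matrix n n Ω) (hF : Submodule.span Ω (Set.range F) = ⊤) {m : A}
    (hm : (F m).det ≠ 0) : IsUnit m := by
  have h0 : ∀ x, F x = 0 → x = 0 := by
    intro x hx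
    have h1 : (1 : Ω) ⊗ₜ[E] x = 0 := (bij_of_span hA F hF).1 (by
      rw [AlgHom.liftEquiv_tmul, one_smul, hx, map_zero])
    obtain ⟨l, hl⟩ := Module.Projective.exists_dual_eq_one E (one_ne_zero : (1 : Ω) ≠ 0)
    have h2 := congrArg (fun z => TensorProduct.lid E A (l.rTensor A z)) h1
    simpa only [LinearMap.rTensor_tmul, TensorProduct.lid_tmul, hl, one_smul, map_zero] using h2
  have hu : IsUnit (F m) := (isUnit_iff_isUnit_det _).2 hm.isUnit
  have h1 : Function.Injective (LinearMap.mulLeft E m) := by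
    rw [← LinearMap.ker_eq_bot, LinearMap.ker_eq_bot']
    intro x hx
    have hx' : m * x = 0 := hx
    refine h0 x (hu.mul_left_cancel ?_)
    rw [← map_mul, hx', map_zero, mul_zero]
  obtain ⟨w, hw⟩ := (LinearMap.injective_iff_surjective.1 h1) 1
  have : IsArtinianRing A := IsArtinianRing.of_finite E _
  exact IsUnit.of_mul_eq_one w (show m * w = 1 from hw)

theorem skolem_ring (hA : finrank E A = Fintype.card n ^ 2) (s : E →+* Ω)
    (f g : A →+* Matrix n n Ω) (hf0 : ∀ k, f (algebraMap E A k) = scalar n (s k))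
    (hg0 : ∀ k, g (algebraMap E A k) = scalar n (s k))
    (hf : Submodule.span Ω (Set.range f) = ⊤) (hg : Submodule.span Ω (Set.range g) = ⊤) :
    ∃ S T : Matrix n n Ω, S * T = 1 ∧ T * S = 1 ∧ ∀ x, g x * S = S * f x := by
  let _ := s.toAlgebra
  exact skolem_same hA { f with commutes' := hf0 } { g with commutes' := hg0 } hf hg

end alg

theorem span_big_ring {K D Ω : Type} [Field K] [DivisionRing D] [Algebra K D]
    [FiniteDimensional K D] [Algebra.IsCentral K D] [Field Ω] {n : ℕ} {κ : Type} [Fintype κ]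
    [DecidableEq κ] (hn : 0 < n) (hdeg : finrank K D = n ^ 2) (s : K →+* Ω)
    (f : D →+* Matrix (Fin n) (Fin n) Ω) (hf : ∀ k, f (algebraMap K D k) = scalar (Fin n) (s k)) :
    Submodule.span Ω (Set.range (big κ f)) = ⊤ ∧
      ∀ k, big κ f (algebraMap K _ k) = scalar _ (s k) := by
  let _ := s.toAlgebra
  exact ⟨span_big hn hdeg { f with commutes' := hf },
    (bigA κ { f with commutes' := hf }).commutes⟩

/-- Congruences do not depend on the splitting. -/
theorem transfer {A n : Type} [Fintype n] [DecidableEq n] [Nonempty n] [InvolutiveStar A]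
    {g g' : A → Matrix n n ℂ} (hg : Submodule.span ℂ (Set.range g') = ⊤)
    {S T B B' Q : Matrix n n ℂ} (hST : S * T = 1) (hTS : T * S = 1) (hS : ∀ x, g' x * S = S * g x)
    (hB : IsUnit B) (hB' : IsUnit B') (h1 : ∀ y, g (star y) * B = B * (g y)ᴴ)
    (h2 : ∀ y, g' (star y) * B' = B' * (g' y)ᴴ) (hQ : IsUnit Q) {m t : A}
    (h : Q * (g m * B) * Qᴴ = g t * B) :
    ∃ Q', IsUnit Q' ∧ Q' * (g' m * B') * Q'ᴴ = g' t * B' := by
  have hSu : IsUnit S := IsUnit.of_mul_eq_one T hST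
  have hTu : IsUnit T := IsUnit.of_mul_eq_one S hTS
  obtain ⟨W, hW1, hW2⟩ : ∃ W, B' * W = 1 ∧ W * B' = 1 := by
    obtain ⟨U, rfl⟩ := hB'
    exact ⟨_, U.mul_inv, U.inv_mul⟩
  have h3 : ∀ y, g' (star y) * (S * B * Sᴴ) = S * B * Sᴴ * (g' y)ᴴ := by
    intro y
    calc g' (star y) * (S * B * Sᴴ) = g' (star y) * S * B * Sᴴ := by simp only [mul_assoc]
      _ = S * (g (star y) * B) * Sᴴ := by rw [hS, mul_assoc S]
      _ = S * B * (S * g y)ᴴ := by rw [h1, conjTranspose_mul]; simp only [mul_assoc]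
      _ = S * B * Sᴴ * (g' y)ᴴ := by rw [← hS, conjTranspose_mul]; simp only [mul_assoc]
  have h4 : ∀ y, (g' y)ᴴ * W = W * g' (star y) := by
    intro y
    calc (g' y)ᴴ * W = W * B' * (g' y)ᴴ * W := by rw [hW2, one_mul]
      _ = W * (g' (star y) * B') * W := by rw [h2, mul_assoc W]
      _ = W * g' (star y) * (B' * W) := by simp only [mul_assoc]
      _ = W * g' (star y) := by rw [hW1, mul_one]
  obtain ⟨c, hc⟩ := scalar_of_span hg (X := S * B * Sᴴ * W) fun y => by
    have h5 := h3 (star y)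
    have h6 := h4 (star y)
    rw [star_star] at h5 h6
    rw [← mul_assoc, h5, mul_assoc, h6, ← mul_assoc]
  have h5 : S * B * Sᴴ = c • B' := by
    calc S * B * Sᴴ = S * B * Sᴴ * W * B' := by rw [mul_assoc _ W, hW2, mul_one]
      _ = c • B' := by rw [hc, smul_mul_assoc, one_mul]
  have hc0 : c ≠ 0 := by
    rintro rfl
    rw [zero_smul] at h5
    exact ((hSu.mul hB).mul ((isUnit_conjTranspose _).2 hSu)).ne_zero h5
  have h6 : ∀ x, c • (g' x * B') = S * (g x * B) * Sᴴ := by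
    intro x
    rw [← mul_smul_comm, ← h5, ← mul_assoc, ← mul_assoc, hS, mul_assoc S]
  have h7 : Sᴴ * Tᴴ = 1 := by rw [← conjTranspose_mul, hTS, conjTranspose_one]
  refine ⟨S * Q * T, (hSu.mul hQ).mul hTu, smul_right_injective _ hc0 ?_⟩
  change c • _ = c • _
  rw [h6, ← h, ← smul_mul_assoc, ← mul_smul_comm, h6, conjTranspose_mul, conjTranspose_mul]
  calc S * Q * T * (S * (g m * B) * Sᴴ) * (Tᴴ * (Qᴴ * Sᴴ))
      = S * Q * (T * S) * (g m * B) * (Sᴴ * Tᴴ) * Qᴴ * Sᴴ := by simp only [mul_assoc]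
    _ = _ := by rw [hTS, h7, mul_one, mul_one]; simp only [mul_assoc]

/-- The theorem of Landherr for a central simple algebra with a unitary involution. -/
theorem lanA {E A Ω : Type} [Field E] [NumberField E] [StarRing E] [Ring A] [StarRing A]
    [Algebra E A] [StarModule E A] [FiniteDimensional E A] [Field Ω] [IsAlgClosed Ω] [Algebra E Ω]
    {n : Type} [Fintype n] [DecidableEq n] [Nonempty n] (hE : ∃ k : E, star k ≠ k) (hG : Gal E Ω)
    (hA : finrank E A = Fintype.card n ^ 2) (F : A →ₐ[E] Matrix n n Ω)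
    (hF : Submodule.span Ω (Set.range F) = ⊤) {m t : A} (hm : star m = m) (ht : star t = t)
    (hm0 : (F m).det ≠ 0)
    (hd : ∃ z : E, z ≠ 0 ∧ (F t).det = algebraMap E Ω (z * star z) * (F m).det)
    (hr : ∀ s : E →+* ℂ, (∀ z, s (star z) = star (s z)) →
      ∃ (g : A →+* Matrix n n ℂ) (B Q : Matrix n n ℂ),
        (∀ k, g (algebraMap E A k) = scalar n (s k)) ∧ Submodule.span ℂ (Set.range g) = ⊤ ∧
        IsUnit B ∧ (∀ y, g (star y) * B = B * (g y)ᴴ) ∧ IsUnit Q ∧
        Q * (g m * B) * Qᴴ = g t * B) :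
    ∃ y : A, IsUnit y ∧ y * m * star y = t := by
  obtain ⟨z, hz0, hz⟩ := hd
  have ht0 : (F t).det ≠ 0 := by
    rw [hz]
    exact mul_ne_zero ((map_ne_zero _).2 (mul_ne_zero hz0 (star_ne_zero.2 hz0))) hm0
  have hmu := unit_of_det hA F hF hm0
  have htu := unit_of_det hA F hF ht0
  have := central_of_span hA F hF
  have hN : 0 < Fintype.card n := Fintype.card_pos
  obtain ⟨r, d, D, _, _, _, _, φ, hrd, hD, -⟩ := Br0x.wed hN (by rw [hA, pow_two])
    (((reindexAlgEquiv Ω Ω (Fintype.equivFin n)).restrictScalars E).toAlgHom.comp F)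
    (span_reindex _ hF)
  have hr0 : 0 < r := Nat.pos_of_mul_pos_right (hrd ▸ hN)
  have hd0 : 0 < d := Nat.pos_of_mul_pos_left (hrd ▸ hN)
  have : Nonempty (Fin r) := ⟨⟨0, hr0⟩⟩
  have : Nonempty (Fin d) := ⟨⟨0, hd0⟩⟩
  have hc : Fintype.card n = Fintype.card (Fin r × Fin d) := by
    rw [Fintype.card_prod, Fintype.card_fin, Fintype.card_fin, hrd]
  let e : n ≃ Fin r × Fin d := Fintype.equivOfCardEq hc
  have hA' : finrank E A = Fintype.card (Fin r × Fin d) ^ 2 := by rw [hA, hc]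
  obtain ⟨f⟩ := Vale.Agent.P011S.exists_split hD Ω
  obtain ⟨k, hk⟩ := hE
  obtain ⟨_, _, u, hu, huH, hφ⟩ := exists_inv φ (θ := k - star k) (sub_ne_zero.2 hk.symm)
    (by rw [star_sub, star_star, neg_sub])
  have hH : ∀ x : A, star x = x → (φ x * u)ᴴ = φ x * u := fun x hx => by
    rw [conjTranspose_mul, huH, ← hφ, hx]
  have hrange : ∀ {X : Type} (G : Matrix (Fin r) (Fin r) D → X),
      Set.range (fun x => G (φ x)) = Set.range G := fun G => φ.surjective.range_comp G
  have hdet : ∀ x, (bigA (Fin r) f (φ x)).det = (F x).det := by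
    obtain ⟨S, T, hST, -, hS⟩ := skolem_span hA' e ((bigA (Fin r) f).comp φ.toAlgHom) F
      ((congrArg _ (hrange (bigA (Fin r) f))).trans (span_big hd0 hD f)) hF
    intro x
    have h1 := congrArg det (hS x)
    rw [det_mul, det_mul, det_submatrix_equiv_self, mul_comm] at h1
    exact (mul_left_cancel₀
      ((isUnit_iff_isUnit_det _).1 (IsUnit.of_mul_eq_one T hST)).ne_zero h1).symm
  obtain ⟨Y, hY, hYH⟩ := lanD ⟨k, hk⟩ hd0 hD hG f (hH m hm) (hH t ht) ((hmu.map φ).mul hu)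
    ((htu.map φ).mul hu)
    ⟨z, hz0, by rw [map_mul (bigA _ f), map_mul (bigA _ f), det_mul, det_mul, hdet, hdet, hz,
      mul_assoc]⟩ fun R => by
      obtain ⟨g, B, Q, hg0, hg, hB, hgB, hQ, hQB⟩ := hr R.s R.hs
      obtain ⟨h1, h2⟩ := span_big_ring (κ := Fin r) hd0 hD R.s R.f R.hf
      let ρ := reindexAlgEquiv ℂ ℂ e
      have hρ : ∀ X, ρ Xᴴ = (ρ X)ᴴ := fun X => rfl
      have h3 : Submodule.span ℂ (Set.range fun x => big (Fin r) R.f (φ x)) = ⊤ :=
        (congrArg _ (hrange (big (Fin r) R.f))).trans h1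
      obtain ⟨S, T, hST, hTS, hS⟩ := skolem_ring hA' R.s (ρ.toRingEquiv.toRingHom.comp g)
        ((big (Fin r) R.f).comp φ.toRingEquiv.toRingHom)
        (fun c => (congrArg ρ (hg0 c)).trans (ρ.commutes _))
        (fun c => (congrArg (big (Fin r) R.f) (φ.commutes c)).trans (h2 c)) (span_reindex e hg) h3
      have h4 : ∀ x, Gm R (φ x * u) =
          big (Fin r) R.f (φ x) * (big (Fin r) R.f u * blk fun _ : Fin r => R.A) := fun x => by
        rw [Gm, map_mul, mul_assoc]
      rw [h4, h4]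
      refine transfer (g := fun x => ρ (g x)) (B := ρ B) (Q := ρ Q) h3 hST hTS hS (hB.map ρ)
        ((hu.map _).mul (blk_unit fun _ => R.unit)) (fun y => ?_) (fun y => ?_) (hQ.map ρ) ?_
      · rw [← hρ, ← map_mul, ← map_mul, hgB]
      · rw [← mul_assoc, ← map_mul, hφ, map_mul, mul_assoc, big_star, mul_assoc]
      · rw [← hρ, ← map_mul, ← map_mul, ← map_mul, ← map_mul, hQB]
  refine ⟨φ.symm Y, hY.map φ.symm, φ.injective (hu.mul_right_cancel ?_)⟩
  rw [map_mul, map_mul, mul_assoc, hφ, φ.apply_symm_apply, ← hYH]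
  simp only [mul_assoc]

end Vale.Agent.P011Z.Cl.Lanx
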