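import Vale.Agent.P011Z.Cl.Gal2

/-!
The algebra with involution attached to unitary descent data.
-/

open Matrix Module

set_option linter.unusedSectionVars false

noncomputable section

namespace Vale.Agent.P011Z.Cl.Lanx

variable {n : Type} [Fintype n] [DecidableEq n] {G K : Subgroup Gq} {P : Gq → Matrix n n Om}

/-- The twisted action on matrices. -/
def act (P : Gq → Matrix n n Om) (σ : Gq) (y : Matrix n n Om) : Matrix n n Om :=
  P σ * y.map σ * (P σ)⁻¹

/-- The graph of the twisted action. -/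
def Rl (P : Gq → Matrix n n Om) (σ : Gq) (y z : Matrix n n Om) : Prop :=
  P σ * y.map σ = z * P σ

theorem rl_act {σ : Gq} (h : (P σ).det ≠ 0) (y : Matrix n n Om) : Rl P σ y (act P σ y) := by
  rw [Rl, act, nonsing_inv_mul_cancel_right _ _ (Ne.isUnit h)]

theorem Rl.uniq {σ : Gq} (h : (P σ).det ≠ 0) {y z w : Matrix n n Om} (h1 : Rl P σ y z)
    (h2 : Rl P σ y w) : z = w := by
  have h3 : z * P σ = w * P σ := h1.symm.trans h2
  rw [← mul_nonsing_inv_cancel_right _ z (Ne.isUnit h), h3,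
    mul_nonsing_inv_cancel_right _ w (Ne.isUnit h)]

theorem Rl.mul {σ : Gq} {x y z w : Matrix n n Om} (h1 : Rl P σ x z) (h2 : Rl P σ y w) :
    Rl P σ (x * y) (z * w) := by
  rw [Rl, Matrix.map_mul, ← mul_assoc, h1, mul_assoc, h2, mul_assoc]

theorem Rl.add {σ : Gq} {x y z w : Matrix n n Om} (h1 : Rl P σ x z) (h2 : Rl P σ y w) :
    Rl P σ (x + y) (z + w) := by
  rw [Rl, Matrix.map_add _ (map_add σ), mul_add, h1, h2, add_mul]

omit [Fintype n] [DecidableEq n] in
theorem map_smul_gq (σ : Gq) (c : Om) (y : Matrix n n Om) : (c • y).map σ = σ c • y.map σ := by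
  ext i j
  exact map_mul σ c (y i j)

theorem Rl.smul {σ : Gq} {x z : Matrix n n Om} (h1 : Rl P σ x z) (c : Om) :
    Rl P σ (c • x) (σ c • z) := by
  rw [Rl, map_smul_gq, Matrix.mul_smul, h1, Matrix.smul_mul]

theorem rl_one (σ : Gq) : Rl P σ 1 1 := by
  rw [Rl, Matrix.map_one _ (map_zero σ) (map_one σ), mul_one, one_mul]

theorem det_map_ne (σ : Gq) {y : Matrix n n Om} (h : y.det ≠ 0) : (y.map σ).det ≠ 0 := by
  have h1 : σ y.det = (y.map σ).det := AlgEquiv.map_det σ y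
  rw [← h1]
  exact (map_ne_zero σ).mpr h

theorem ne_of_smul [Nonempty n] {c : Om} {x y : Matrix n n Om} (h : x = c • y) (hx : x.det ≠ 0) :
    c ≠ 0 := by
  rintro rfl
  rw [h, zero_smul, det_zero] at hx
  exact hx rfl

theorem Rl.coc [Nonempty n] (h : UD G K P) {σ τ : Gq} (hσ : σ ∈ G) (hτ : τ ∈ K)
    {y z w : Matrix n n Om} (h1 : Rl P τ y z) (h2 : Rl P σ z w) : Rl P (σ * τ) y w := by
  obtain ⟨c, hc⟩ := h.coc σ hσ τ hτ
  have hc0 : c ≠ 0 := ne_of_smul hc (by
    rw [det_mul]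
    exact mul_ne_zero (h.ne σ hσ) (det_map_ne σ (h.ne τ (h.le hτ))))
  have h3 : (P τ).map σ * y.map (σ * τ) = z.map σ * (P τ).map σ := by
    have h4 := congrArg (fun X : Matrix n n Om => X.map σ) h1
    simp only [Matrix.map_mul] at h4
    exact h4
  apply smul_right_injective _ hc0
  change c • (P (σ * τ) * y.map (σ * τ)) = c • (w * P (σ * τ))
  rw [← Matrix.smul_mul, ← Matrix.mul_smul, ← hc, mul_assoc, h3, ← mul_assoc, h2, mul_assoc]

theorem Rl.cod [Nonempty n] (h : UD G K P) {σ τ : Gq} (hσ : σ ∈ G) (hτ : τ ∈ G) (hK : τ ∉ K)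
    {y z w : Matrix n n Om} (h1 : Rl P τ y zᵀ) (h2 : Rl P σ z w) : Rl P (σ * τ) y wᵀ := by
  obtain ⟨c, hc⟩ := h.cod σ hσ τ hτ hK
  have hc0 : c ≠ 0 := ne_of_smul hc (det_map_ne σ (h.ne τ hτ))
  have h3 : (P τ).map σ * y.map (σ * τ) = (z.map σ)ᵀ * (P τ).map σ := by
    have h4 := congrArg (fun X : Matrix n n Om => X.map σ) h1
    simp only [Matrix.map_mul] at h4
    exact h4
  rw [hc, Matrix.smul_mul, Matrix.mul_smul] at h3
  have h5 := smul_right_injective _ hc0 h3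
  have h6 : (z.map σ)ᵀ * (P σ)ᵀ = (P σ)ᵀ * wᵀ := by
    rw [← transpose_mul, ← transpose_mul]
    exact congrArg transpose h2
  rw [← mul_assoc, h6, mul_assoc, mul_assoc] at h5
  have hu : IsUnit (P σ)ᵀ.det := by
    rw [det_transpose]
    exact Ne.isUnit (h.ne σ hσ)
  rw [Rl, ← nonsing_inv_mul_cancel_left _ (P (σ * τ) * y.map (σ * τ)) hu, h5,
    nonsing_inv_mul_cancel_left _ _ hu]

theorem ta_act [Nonempty n] (h : UD G K P) : TA K (act P) where
  opn := h.opn
  semi := fun σ hσ => by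
    have h0 := h.ne σ (h.le hσ)
    refine ⟨fun x y => (rl_act h0 _).uniq h0 ((rl_act h0 x).add (rl_act h0 y)),
      fun t x => (rl_act h0 _).uniq h0 ((rl_act h0 x).smul t), ?_⟩
    refine Function.bijective_iff_has_inverse.mpr
      ⟨fun z => ((P σ)⁻¹ * z * P σ).map σ.symm, fun y => ?_, fun z => ?_⟩
    · have h1 : (P σ)⁻¹ * act P σ y * P σ = y.map σ := by
        rw [mul_assoc, ← rl_act h0 y, nonsing_inv_mul_cancel_left _ _ (Ne.isUnit h0)]
      beta_reduce
      rw [h1]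
      ext i j
      exact σ.symm_apply_apply _
    · refine (rl_act h0 _).uniq h0 ?_
      have h1 : (((P σ)⁻¹ * z * P σ).map σ.symm).map σ = (P σ)⁻¹ * z * P σ := by
        ext i j
        exact σ.apply_symm_apply _
      rw [Rl, h1, mul_assoc, mul_nonsing_inv_cancel_left _ _ (Ne.isUnit h0)]
  mul := fun σ hσ τ hτ x =>
    (Rl.coc h (h.le hσ) hτ (rl_act (h.ne τ (h.le hτ)) x) (rl_act (h.ne σ (h.le hσ)) _)).uniq
      (h.ne _ (h.le (mul_mem hσ hτ))) (rl_act (h.ne _ (h.le (mul_mem hσ hτ))) x)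
  smo := fun y => by
    obtain ⟨H, hH, h1⟩ := h.smo
    obtain ⟨H', hH', h2⟩ := opn_fin fun q : n × n => y q.1 q.2
    refine ⟨H ⊓ H', hH.inf hH', fun σ hσ hK => ?_⟩
    obtain ⟨c, hc⟩ := h1 σ hσ.1 hK
    have h0 := h.ne σ (h.le hK)
    refine (rl_act h0 _).uniq h0 ?_
    have h3 : y.map σ = y := by
      ext i j
      exact h2 σ hσ.2 (i, j)
    rw [Rl, h3, hc, Matrix.smul_mul, Matrix.mul_smul, one_mul, mul_one]

theorem inv_mul_mem_K (h : UD G K P) {s γ : Gq} (hs : s ∈ G) (hsK : s ∉ K) (hγ : γ ∈ G)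
    (hK : γ ∉ K) : s⁻¹ * γ ∈ K :=
  (h.ix _ (inv_mem hs) _ hγ).mpr (iff_of_false (fun h1 => hsK (inv_mem_iff.mp h1)) hK)

theorem mul_notMem_K (h : UD G K P) {s τ : Gq} (hs : s ∈ G) (hsK : s ∉ K) (hτ : τ ∈ K) :
    τ * s ∉ K := fun h1 => hsK (((h.ix _ (h.le hτ) _ hs).mp h1).mp hτ)

theorem sq_mem_K (h : UD G K P) {s : Gq} (hs : s ∈ G) : s * s ∈ K :=
  (h.ix _ hs _ hs).mpr Iff.rfl

theorem out_eq (h : UD G K P) {s γ : Gq} (hs : s ∈ G) (hsK : s ∉ K) (hγ : γ ∈ G)
    (hK : γ ∉ K) {x : Om} (hx : Fx K x) : γ x = s x := by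
  have h1 := hx _ (inv_mul_mem_K h hs hsK hγ hK)
  have h2 : γ x = s ((s⁻¹ * γ) x) := by
    rw [← AlgEquiv.mul_apply, mul_inv_cancel_left]
  rw [h2, h1]

/-- The involution of the fixed field. -/
@[reducible] def stE (h : UD G K P) {s : Gq} (hs : s ∈ G) (hsK : s ∉ K) :
    StarRing (IntermediateField.fixedField K) where
  star x := ⟨s x, mem_fix.mpr fun _ hτ =>
    out_eq h hs hsK (mul_mem (h.le hτ) hs) (mul_notMem_K h hs hsK hτ) (mem_fix.mp x.2)⟩
  star_involutive x := Subtype.ext (mem_fix.mp x.2 _ (sq_mem_K h hs))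
  star_mul x y := Subtype.ext ((map_mul s (x : Om) y).trans (mul_comm _ _))
  star_add x y := Subtype.ext (map_add s (x : Om) y)

theorem alg_eq (k : IntermediateField.fixedField K) :
    algebraMap (IntermediateField.fixedField K) (Matrix n n Om) k = (k : Om) • 1 := by
  rw [Algebra.algebraMap_eq_smul_one]
  rfl

/-- The algebra of fixed matrices. -/
def fixA (K : Subgroup Gq) (P : Gq → Matrix n n Om) :
    Subalgebra (IntermediateField.fixedField K) (Matrix n n Om) where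
  carrier := {y | ∀ τ ∈ K, Rl P τ y y}
  mul_mem' := fun hx hy τ hτ => (hx τ hτ).mul (hy τ hτ)
  add_mem' := fun hx hy τ hτ => (hx τ hτ).add (hy τ hτ)
  algebraMap_mem' := fun k τ hτ => by
    have h1 := (rl_one (P := P) τ).smul (k : Om)
    rw [mem_fix.mp k.2 τ hτ] at h1
    rw [alg_eq]
    exact h1

theorem mem_fixA {y : Matrix n n Om} : y ∈ fixA K P ↔ ∀ τ ∈ K, Rl P τ y y := Iff.rfl

theorem rl_st (h : UD G K P) {s : Gq} (hs : s ∈ G) (y : Matrix n n Om) :
    Rl P s y (act P s y)ᵀᵀ := rl_act (h.ne s hs) y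

theorem key [Nonempty n] (h : UD G K P) {s γ : Gq} (hs : s ∈ G) (hsK : s ∉ K) (hγ : γ ∈ G)
    (hK : γ ∉ K) {y : Matrix n n Om} (hy : y ∈ fixA K P) : Rl P γ y (act P s y)ᵀᵀ := by
  have h1 := inv_mul_mem_K h hs hsK hγ hK
  have h2 := Rl.coc h hs h1 (hy _ h1) (rl_st h hs y)
  rwa [mul_inv_cancel_left] at h2

theorem st_mem [Nonempty n] (h : UD G K P) {s : Gq} (hs : s ∈ G) (hsK : s ∉ K)
    {y : Matrix n n Om} (hy : y ∈ fixA K P) : (act P s y)ᵀ ∈ fixA K P := by
  intro τ hτ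
  have h1 := rl_act (h.ne τ (h.le hτ)) (act P s y)ᵀ
  have h2 := Rl.cod h (h.le hτ) hs hsK (rl_st h hs y) h1
  have h3 := key h hs hsK (mul_mem (h.le hτ) hs) (mul_notMem_K h hs hsK hτ) hy
  have h4 := transpose_injective (h2.uniq (h.ne _ (mul_mem (h.le hτ) hs)) h3)
  rwa [h4] at h1

/-- The involution of the algebra. -/
@[reducible] def stA [Nonempty n] (h : UD G K P) {s : Gq} (hs : s ∈ G) (hsK : s ∉ K) :
    StarRing (fixA K P) where
  star y := ⟨(act P s y)ᵀ, st_mem h hs hsK y.2⟩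
  star_involutive y := Subtype.ext
    ((Rl.cod h hs hs hsK (rl_st h hs y) (rl_st h hs (act P s y)ᵀ)).uniq (h.ne _ (mul_mem hs hs))
      (y.2 _ (sq_mem_K h hs)))
  star_mul x y := Subtype.ext (by
    have h1 := (rl_act (h.ne s hs) ((x : Matrix n n Om) * y)).uniq (h.ne s hs)
      ((rl_act (h.ne s hs) x).mul (rl_act (h.ne s hs) y))
    change (act P s ((x : Matrix n n Om) * y))ᵀ = (act P s y)ᵀ * (act P s x)ᵀ
    rw [h1, transpose_mul])
  star_add x y := Subtype.ext (by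
    have h1 := (rl_act (h.ne s hs) ((x : Matrix n n Om) + y)).uniq (h.ne s hs)
      ((rl_act (h.ne s hs) x).add (rl_act (h.ne s hs) y))
    change (act P s ((x : Matrix n n Om) + y))ᵀ = (act P s x)ᵀ + (act P s y)ᵀ
    rw [h1, transpose_add])

theorem st_smul (h : UD G K P) {s : Gq} (hs : s ∈ G) (c : Om) (y : Matrix n n Om) :
    (act P s (c • y))ᵀ = s c • (act P s y)ᵀ := by
  rw [(rl_act (h.ne s hs) (c • y)).uniq (h.ne s hs) ((rl_act (h.ne s hs) y).smul c),
    transpose_smul]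

theorem fv_iff (h : UD G K P) {y : Matrix n n Om} : Fv K (act P) y ↔ y ∈ fixA K P := by
  refine forall₂_congr fun τ hτ => ⟨fun h1 => ?_, fun h1 => ?_⟩
  · have h2 := rl_act (h.ne τ (h.le hτ)) y
    rwa [h1] at h2
  · exact (rl_act (h.ne τ (h.le hτ)) y).uniq (h.ne τ (h.le hτ)) h1

theorem span_fixA [Nonempty n] (h : UD G K P) :
    Submodule.span Om (Set.range (fixA K P).val) = ⊤ := by
  rw [← (ta_act h).span]
  congr 1
  ext y
  exact ⟨fun ⟨x, hx⟩ => (fv_iff h).mpr (hx ▸ x.2), fun hy => ⟨⟨y, (fv_iff h).mp hy⟩, rfl⟩⟩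

theorem basis_fixA [Nonempty n] (h : UD G K P) :
    Nonempty (Basis (Fin (finrank Om (Matrix n n Om))) (IntermediateField.fixedField K)
      (fixA K P)) := by
  obtain ⟨b, hb⟩ := (ta_act h).basis
  let v : Fin (finrank Om (Matrix n n Om)) → fixA K P := fun i => ⟨b i, (fv_iff h).mp (hb i)⟩
  have hsum : ∀ c : Fin (finrank Om (Matrix n n Om)) → IntermediateField.fixedField K,
      ((∑ i, c i • v i : fixA K P) : Matrix n n Om) = ∑ i, (c i : Om) • b i := by
    intro c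
    rw [AddSubmonoidClass.coe_finsetSum]
    rfl
  refine ⟨Basis.mk (v := v) (Fintype.linearIndependent_iff.mpr fun c hc i => ?_) fun y _ => ?_⟩
  · have h1 := hsum c
    rw [hc] at h1
    exact Subtype.ext (Fintype.linearIndependent_iff.mp b.linearIndependent _ h1.symm i)
  · let c : Fin (finrank Om (Matrix n n Om)) → IntermediateField.fixedField K := fun i =>
      ⟨b.repr y i, mem_fix.mpr fun σ hσ => by
        rw [← (ta_act h).repr b hb hσ, (fv_iff h).mpr y.2 σ hσ]⟩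
    have h1 : y = ∑ i, c i • v i := Subtype.ext (by
      rw [hsum]
      exact (b.sum_repr y).symm)
    rw [h1]
    exact Submodule.sum_mem _ fun i _ => Submodule.smul_mem _ _ (Submodule.subset_span ⟨i, rfl⟩)

theorem span_map (ι : Om →+* ℂ) {α : Type} (F : α → Matrix n n Om)
    (hF : Submodule.span Om (Set.range F) = ⊤) :
    Submodule.span ℂ (Set.range fun a => (F a).map ι) = ⊤ := by
  have h1 : ∀ X ∈ Submodule.span Om (Set.range F),
      X.map ι ∈ Submodule.span ℂ (Set.range fun a => (F a).map ι) := by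
    intro X hX
    induction hX using Submodule.span_induction with
    | mem x hx =>
      obtain ⟨a, rfl⟩ := hx
      exact Submodule.subset_span ⟨a, rfl⟩
    | zero =>
      rw [Matrix.map_zero _ (map_zero ι)]
      exact Submodule.zero_mem _
    | add p q _ _ hp hq =>
      rw [Matrix.map_add _ (map_add ι)]
      exact Submodule.add_mem _ hp hq
    | smul c p _ hp =>
      have h2 : (c • p).map ι = ι c • p.map ι := by
        ext i j
        exact map_mul ι c (p i j)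
      rw [h2]
      exact Submodule.smul_mem _ _ hp
  rw [eq_top_iff]
  intro X _
  induction X using Matrix.induction_on' with
  | h_zero => exact Submodule.zero_mem _
  | h_add p q hp hq => exact Submodule.add_mem _ (hp trivial) (hq trivial)
  | h_std_basis i j d =>
    have h2 := Submodule.smul_mem _ d (h1 (single i j 1) (hF ▸ Submodule.mem_top))
    rwa [map_single, map_one, smul_single, smul_eq_mul, mul_one] at h2

theorem cx_conj {W Z M T : Matrix n n ℂ} {c : ℂ} (hW : IsUnit W.det) (hc : Wᴴ = c • W)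
    (h : Zᴴ * W * M * Z = W * T) :
    W⁻¹ * Zᴴ * W * (M * W⁻¹) * (W⁻¹ * Zᴴ * W)ᴴ = T * W⁻¹ := by
  have h1 : c • ((W⁻¹)ᴴ * W) = 1 := by
    rw [← Matrix.mul_smul, ← hc, ← conjTranspose_mul, mul_nonsing_inv _ hW, conjTranspose_one]
  have h2 : (W⁻¹ * Zᴴ * W)ᴴ * W = W * Z := by
    rw [conjTranspose_mul, conjTranspose_mul, conjTranspose_conjTranspose, hc, Matrix.smul_mul,
      Matrix.smul_mul, mul_assoc, mul_assoc, ← Matrix.mul_smul, ← Matrix.mul_smul, h1, mul_one]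
  have h3 : (W⁻¹ * Zᴴ * W)ᴴ = W * Z * W⁻¹ := by
    rw [← h2, mul_nonsing_inv_cancel_right _ _ hW]
  have h4 : T = W⁻¹ * (Zᴴ * W * M * Z) := by
    rw [h, nonsing_inv_mul_cancel_left _ _ hW]
  rw [h3, h4]
  simp only [mul_assoc]
  rw [nonsing_inv_mul_cancel_left _ _ hW]

theorem herm_scalar (h : UD G K P) {γ : Gq} (hγ : γ ∈ G) (hK : γ ∉ K) (h2 : γ * γ = 1) :
    ∃ c : Om, (P γ).map γ = c • (P γ)ᵀ := by
  obtain ⟨c, hc⟩ := h.cod γ hγ γ hγ hK
  obtain ⟨d, hd⟩ := h.coc 1 (one_mem G) 1 (one_mem K)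
  have h0 := Ne.isUnit (h.ne 1 (one_mem G))
  have h3 : P 1 = d • 1 := by
    have h4 : (P 1).map (1 : Gq) = P 1 := rfl
    rw [h4, mul_one] at hd
    rw [← mul_nonsing_inv_cancel_right _ (P 1) h0, hd, Matrix.smul_mul, mul_nonsing_inv _ h0]
  refine ⟨c * d, ?_⟩
  rw [hc, h2, h3, Matrix.mul_smul, mul_one, smul_smul]

end Vale.Agent.P011Z.Cl.Lanx

end
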