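import Mathlib

/-!
The theorem of Skolem and Noether for splittings whose images span the matrix algebra.
-/

open Matrix Module
open scoped TensorProduct

namespace Vale.Agent.P011Z.Cl.Lanx

variable {E A Ω : Type} [Field E] [Ring A] [Algebra E A] [Field Ω] [Algebra E Ω]
  {n n' : Type} [Fintype n] [DecidableEq n] [Fintype n'] [DecidableEq n']

theorem scalar_of_span {ι : Type} {f : ι → Matrix n n Ω} (hf : Submodule.span Ω (Set.range f) = ⊤)
    {X : Matrix n n Ω} (hX : ∀ x, f x * X = X * f x) : ∃ c : Ω, X = c • (1 : Matrix n n Ω) := by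
  have h1 : ∀ Y : Matrix n n Ω, Y * X = X * Y := by
    intro Y
    have hY : Y ∈ Submodule.span Ω (Set.range f) := by rw [hf]; exact Submodule.mem_top
    induction hY using Submodule.span_induction with
    | mem x hx => obtain ⟨x, rfl⟩ := hx; exact hX x
    | zero => rw [zero_mul, mul_zero]
    | add a b _ _ ha hb => rw [add_mul, mul_add, ha, hb]
    | smul c a _ ha => rw [smul_mul_assoc, mul_smul_comm, ha]
  obtain ⟨c, hc⟩ := mem_range_scalar_iff_commute_single'.2 fun i j => h1 (single i j 1)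
  exact ⟨c, by rw [← hc, scalar_apply, smul_one_eq_diagonal]⟩

theorem bij_of_span [FiniteDimensional E A] (hA : finrank E A = Fintype.card n ^ 2)
    (f : A →ₐ[E] Matrix n n Ω) (hf : Submodule.span Ω (Set.range f) = ⊤) :
    Function.Bijective (AlgHom.liftEquiv E Ω A _ f) := by
  have hs : Function.Surjective (AlgHom.liftEquiv E Ω A _ f) := by
    intro Y
    have hY : Y ∈ Submodule.span Ω (Set.range f) := by rw [hf]; exact Submodule.mem_top
    induction hY using Submodule.span_induction with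
    | mem x hx =>
      obtain ⟨x, rfl⟩ := hx
      exact ⟨1 ⊗ₜ x, by rw [AlgHom.liftEquiv_tmul, one_smul]⟩
    | zero => exact ⟨0, map_zero _⟩
    | add a b _ _ ha hb =>
      obtain ⟨a, rfl⟩ := ha
      obtain ⟨b, rfl⟩ := hb
      exact ⟨a + b, map_add _ _ _⟩
    | smul c a _ ha =>
      obtain ⟨a, rfl⟩ := ha
      exact ⟨c • a, map_smul _ _ _⟩
  refine ⟨?_, hs⟩
  have h1 : finrank Ω (Ω ⊗[E] A) = finrank Ω (Matrix n n Ω) := by
    rw [Module.finrank_baseChange, hA, Module.finrank_matrix, Module.finrank_self, mul_one, pow_two]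
  exact (LinearMap.injective_iff_surjective_of_finrank_eq_finrank
    (f := (AlgHom.liftEquiv E Ω A _ f).toLinearMap) h1).2 hs

theorem skolem_same [FiniteDimensional E A] (hA : finrank E A = Fintype.card n ^ 2)
    (f g : A →ₐ[E] Matrix n n Ω) (hf : Submodule.span Ω (Set.range f) = ⊤)
    (hg : Submodule.span Ω (Set.range g) = ⊤) :
    ∃ S T : Matrix n n Ω, S * T = 1 ∧ T * S = 1 ∧ ∀ x, g x * S = S * f x := by
  let F := AlgEquiv.ofBijective _ (bij_of_span hA f hf)
  let G := AlgEquiv.ofBijective _ (bij_of_span hA g hg)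
  let Φ : End Ω (n → Ω) ≃ₐ[Ω] End Ω (n → Ω) :=
    (Matrix.toLinAlgEquiv' (n := n) (R := Ω)).symm.trans ((F.symm.trans G).trans
      (Matrix.toLinAlgEquiv' (n := n) (R := Ω)))
  obtain ⟨T, hT⟩ := AlgEquiv.eq_linearEquivConjAlgEquiv Φ
  refine ⟨LinearMap.toMatrix' T.toLinearMap, LinearMap.toMatrix' T.symm.toLinearMap, ?_, ?_, ?_⟩
  · rw [← LinearMap.toMatrix'_comp]
    simp
  · rw [← LinearMap.toMatrix'_comp]
    simp
  · intro x
    have hF : F (1 ⊗ₜ x) = f x := by
      rw [AlgEquiv.ofBijective_apply, AlgHom.liftEquiv_tmul, one_smul]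
    have hG : G (1 ⊗ₜ x) = g x := by
      rw [AlgEquiv.ofBijective_apply, AlgHom.liftEquiv_tmul, one_smul]
    have h1 : Φ (Matrix.toLin' (f x)) = Matrix.toLin' (g x) := by
      change (Matrix.toLinAlgEquiv' (n := n) (R := Ω)) (G (F.symm
        ((Matrix.toLinAlgEquiv' (n := n) (R := Ω)).symm (Matrix.toLin' (f x))))) = _
      have h2 : (Matrix.toLinAlgEquiv' (n := n) (R := Ω)).symm (Matrix.toLin' (f x)) = f x :=
        (Matrix.toLinAlgEquiv' (n := n) (R := Ω)).symm_apply_apply (f x)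
      rw [h2, ← hF, AlgEquiv.symm_apply_apply, hG]
      rfl
    rw [hT] at h1
    have h3 : (Matrix.toLin' (g x)) ∘ₗ T.toLinearMap = T.toLinearMap ∘ₗ Matrix.toLin' (f x) := by
      rw [← h1]
      ext v i
      simp [LinearEquiv.conjAlgEquiv_apply]
    have h4 := congrArg LinearMap.toMatrix' h3
    rw [LinearMap.toMatrix'_comp, LinearMap.toMatrix'_comp, LinearMap.toMatrix'_toLin',
      LinearMap.toMatrix'_toLin'] at h4
    exact h4

theorem span_reindex {ι : Type} {g : ι → Matrix n' n' Ω} (e : n' ≃ n)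
    (hg : Submodule.span Ω (Set.range g) = ⊤) :
    Submodule.span Ω (Set.range fun x => reindexAlgEquiv Ω Ω e (g x)) = ⊤ := by
  have h1 : (Set.range fun x => reindexAlgEquiv Ω Ω e (g x)) =
      (reindexAlgEquiv Ω Ω e).toLinearEquiv.toLinearMap '' Set.range g := by
    rw [← Set.range_comp]
    rfl
  rw [h1, Submodule.span_image, hg, Submodule.map_top, LinearEquiv.range]

theorem skolem_span [FiniteDimensional E A] (hA : finrank E A = Fintype.card n ^ 2) (e : n' ≃ n)
    (f : A →ₐ[E] Matrix n n Ω) (g : A →ₐ[E] Matrix n' n' Ω)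
    (hf : Submodule.span Ω (Set.range f) = ⊤) (hg : Submodule.span Ω (Set.range g) = ⊤) :
    ∃ S T : Matrix n n Ω, S * T = 1 ∧ T * S = 1 ∧
      ∀ x, (g x).submatrix e.symm e.symm * S = S * f x :=
  skolem_same hA f (((reindexAlgEquiv Ω Ω e).restrictScalars E).toAlgHom.comp g) hf
    (span_reindex e hg)

end Vale.Agent.P011Z.Cl.Lanx
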