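import Vale.Agent.P011.RP.Basic
import Vale.Agent.P011Z.Cl.Lan.Sk

/-!
Matrices over a division algebra and their images under splittings: reduced norms and places.
-/

open Matrix Module

set_option linter.unusedSectionVars false

noncomputable section

namespace Vale.Agent.P011Z.Cl.Lanx

open Vale.Agent.P011.RP

section big

variable {D F : Type} [Ring D] [CommRing F] {n : ℕ} {κ : Type} [Fintype κ] [DecidableEq κ]

/-- the splitting of the matrix algebra -/
def big (κ : Type) [Fintype κ] [DecidableEq κ] (g : D →+* Matrix (Fin n) (Fin n) F) :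
    Matrix κ κ D →+* Matrix (κ × Fin n) (κ × Fin n) F :=
  (compRingEquiv κ (Fin n) F).toRingHom.comp g.mapMatrix

theorem big_apply (g : D →+* Matrix (Fin n) (Fin n) F) (Y : Matrix κ κ D) (x y : κ × Fin n) :
    big κ g Y x y = g (Y x.1 y.1) x.2 y.2 := rfl

/-- block diagonal matrices -/
def blk (S : κ → Matrix (Fin n) (Fin n) F) : Matrix (κ × Fin n) (κ × Fin n) F :=
  compRingEquiv κ (Fin n) F (diagonal S)

theorem blk_apply (S : κ → Matrix (Fin n) (Fin n) F) (x y : κ × Fin n) :
    blk S x y = if x.1 = y.1 then S x.1 x.2 y.2 else 0 := by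
  change diagonal S x.1 y.1 x.2 y.2 = _
  rw [diagonal_apply]
  split_ifs <;> rfl

theorem det_blk (S : κ → Matrix (Fin n) (Fin n) F) : (blk S).det = ∏ i, (S i).det := by
  have h : blk S = (blockDiagonal S).submatrix (Equiv.prodComm _ _) (Equiv.prodComm _ _) := by
    ext x y
    rw [blk_apply]
    rfl
  rw [h, det_submatrix_equiv_self, det_blockDiagonal]

theorem blk_mul (S T : κ → Matrix (Fin n) (Fin n) F) : blk S * blk T = blk fun i => S i * T i := by
  rw [blk, blk, ← map_mul, diagonal_mul_diagonal]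
  rfl

theorem blk_one : blk (fun _ : κ => (1 : Matrix (Fin n) (Fin n) F)) = 1 := by
  rw [blk, diagonal_one, map_one]

theorem blk_unit {S : κ → Matrix (Fin n) (Fin n) F} (h : ∀ i, IsUnit (S i)) : IsUnit (blk S) := by
  rw [isUnit_iff_isUnit_det, det_blk]
  exact IsUnit.prod_univ_iff.2 fun i => (isUnit_iff_isUnit_det _).1 (h i)

theorem big_diagonal (g : D →+* Matrix (Fin n) (Fin n) F) (c : κ → D) :
    big κ g (diagonal c) = blk fun i => g (c i) := by
  ext x y
  rw [big_apply, blk_apply, diagonal_apply]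
  split_ifs
  · rfl
  · rw [map_zero]
    rfl

theorem big_mul_blk (g : D →+* Matrix (Fin n) (Fin n) F) (Y : Matrix κ κ D)
    (S : Matrix (Fin n) (Fin n) F) (x y : κ × Fin n) :
    (big κ g Y * blk fun _ : κ => S) x y = (g (Y x.1 y.1) * S) x.2 y.2 := by
  have h : big κ g Y * (blk fun _ : κ => S) =
      compRingEquiv κ (Fin n) F (g.mapMatrix Y * diagonal fun _ : κ => S) := by
    rw [map_mul]
    rfl
  rw [h]
  change (g.mapMatrix Y * diagonal fun _ : κ => S) x.1 y.1 x.2 y.2 = _
  rw [mul_diagonal]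
  rfl

theorem blk_mul_big (g : D →+* Matrix (Fin n) (Fin n) F) (Y : Matrix κ κ D)
    (S : Matrix (Fin n) (Fin n) F) (x y : κ × Fin n) :
    ((blk fun _ : κ => S) * big κ g Y) x y = (S * g (Y x.1 y.1)) x.2 y.2 := by
  have h : (blk fun _ : κ => S) * big κ g Y =
      compRingEquiv κ (Fin n) F ((diagonal fun _ : κ => S) * g.mapMatrix Y) := by
    rw [map_mul]
    rfl
  rw [h]
  change ((diagonal fun _ : κ => S) * g.mapMatrix Y) x.1 y.1 x.2 y.2 = _
  rw [diagonal_mul]
  rfl

theorem blk_conj [StarRing F] (S : κ → Matrix (Fin n) (Fin n) F) :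
    (blk S)ᴴ = blk fun i => (S i)ᴴ := by
  ext x y
  rw [conjTranspose_apply, blk_apply, blk_apply]
  by_cases h : x.1 = y.1
  · rw [if_pos h, if_pos h.symm, h]
    rfl
  · rw [if_neg h, if_neg (Ne.symm h), star_zero]

end big

section nrd

variable {K D Ω : Type} [Field K] [DivisionRing D] [Algebra K D] [FiniteDimensional K D]
  [Algebra.IsCentral K D] [Field Ω] [Algebra K Ω] {n : ℕ} {κ : Type} [Fintype κ] [DecidableEq κ]

/-- the splitting of the matrix algebra, as a map of algebras -/
def bigA (κ : Type) [Fintype κ] [DecidableEq κ] (f : D →ₐ[K] Matrix (Fin n) (Fin n) Ω) :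
    Matrix κ κ D →ₐ[K] Matrix (κ × Fin n) (κ × Fin n) Ω :=
  (compAlgEquiv κ (Fin n) Ω K).toAlgHom.comp f.mapMatrix

theorem bigA_apply (f : D →ₐ[K] Matrix (Fin n) (Fin n) Ω) (Y : Matrix κ κ D) :
    bigA κ f Y = big κ (f : D →+* Matrix (Fin n) (Fin n) Ω) Y := rfl

theorem span_big (hn : 0 < n) (hdeg : finrank K D = n ^ 2)
    (f : D →ₐ[K] Matrix (Fin n) (Fin n) Ω) : Submodule.span Ω (Set.range (bigA κ f)) = ⊤ := by
  have h1 : ∀ (a b : κ) (X : Matrix (Fin n) (Fin n) Ω),
      comp κ κ (Fin n) (Fin n) Ω (single a b X) ∈ Submodule.span Ω (Set.range (bigA κ f)) := by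
    intro a b X
    have hX : X ∈ Submodule.span Ω (Set.range f) := by
      rw [span_split hn hdeg f]; exact Submodule.mem_top
    induction hX using Submodule.span_induction with
    | mem x hx =>
      obtain ⟨x, rfl⟩ := hx
      refine Submodule.subset_span ⟨single a b x, ?_⟩
      change comp κ κ (Fin n) (Fin n) Ω ((single a b x).map f) = _
      rw [map_single]
    | zero =>
      rw [single_zero]
      exact Submodule.zero_mem _
    | add p q _ _ hp hq =>
      rw [single_add]
      exact Submodule.add_mem _ hp hq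
    | smul c p _ hp =>
      rw [← smul_single]
      exact Submodule.smul_mem _ c hp
  rw [eq_top_iff]
  intro X _
  induction X using Matrix.induction_on' with
  | h_zero => exact Submodule.zero_mem _
  | h_add p q hp hq => exact Submodule.add_mem _ (hp trivial) (hq trivial)
  | h_std_basis i j d =>
    have h2 := h1 i.1 j.1 (single i.2 j.2 d)
    rwa [comp_single_single] at h2

theorem det_big_eq (hn : 0 < n) (hdeg : finrank K D = n ^ 2)
    (f g : D →ₐ[K] Matrix (Fin n) (Fin n) Ω) (Y : Matrix κ κ D) :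
    (bigA κ g Y).det = (bigA κ f Y).det := by
  obtain ⟨S, hS, h⟩ := skolem hn hdeg f g
  have h1 : bigA κ g Y * (blk fun _ : κ => S) = (blk fun _ : κ => S) * bigA κ f Y := by
    ext x y
    rw [bigA_apply, bigA_apply, big_mul_blk, blk_mul_big]
    exact congrFun (congrFun (h _) _) _
  have h2 := congrArg det h1
  rw [det_mul, det_mul, mul_comm] at h2
  exact mul_left_cancel₀ ((isUnit_iff_isUnit_det _).1 (blk_unit fun _ : κ => hS)).ne_zero h2

variable [StarRing K] [StarRing D] [StarModule K D]

/-- The extension is Galois and the involution extends to an automorphism. -/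
structure Gal (K Ω : Type) [Field K] [StarRing K] [Field Ω] [Algebra K Ω] : Prop where
  fix : ∀ x : Ω, (∀ σ : Ω ≃ₐ[K] Ω, σ x = x) → ∃ k, algebraMap K Ω k = x
  ext : ∃ s : Ω ≃+* Ω, ∀ k, s (algebraMap K Ω k) = algebraMap K Ω (star k)

theorem exists_nrd (hn : 0 < n) (hdeg : finrank K D = n ^ 2) (hG : Gal K Ω)
    (f : D →ₐ[K] Matrix (Fin n) (Fin n) Ω) (Y : Matrix κ κ D) :
    ∃ z : K, (bigA κ f Y).det = algebraMap K Ω z ∧ (bigA κ f Yᴴ).det = algebraMap K Ω (star z) := by
  obtain ⟨z, hz⟩ := hG.fix (bigA κ f Y).det fun σ => by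
    rw [AlgEquiv.map_det]
    exact det_big_eq hn hdeg f (σ.mapMatrix.toAlgHom.comp f) Y
  obtain ⟨s, hs⟩ := hG.ext
  let g : D →ₐ[K] Matrix (Fin n) (Fin n) Ω :=
    { toFun := fun x => (s : Ω →+* Ω).mapMatrix (f (star x))ᵀ
      map_one' := by rw [star_one, map_one, transpose_one, map_one]
      map_zero' := by rw [star_zero, map_zero, transpose_zero, map_zero]
      map_add' := fun x y => by rw [star_add, map_add, transpose_add, map_add]
      map_mul' := fun x y => by rw [star_mul, map_mul, transpose_mul, map_mul]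
      commutes' := fun k => by
        rw [← algebraMap_star_comm, AlgHom.commutes, algebraMap_eq_diagonal,
          algebraMap_eq_diagonal, diagonal_transpose, RingHom.mapMatrix_apply,
          diagonal_map (map_zero _)]
        congr 1
        funext i
        exact (hs _).trans (by rw [star_star]; rfl) }
  have h1 := det_big_eq hn hdeg f g Y
  have h2 : bigA κ g Y = (s : Ω →+* Ω).mapMatrix (bigA κ f Yᴴ)ᵀ := rfl
  rw [h2, ← RingHom.map_det, det_transpose, ← hz] at h1
  refine ⟨z, hz.symm, s.injective ?_⟩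
  rw [hs, star_star]
  exact h1

end nrd

section sig

variable {K D : Type} [Field K] [StarRing K] [DivisionRing D] [StarRing D] [Algebra K D]
  {n : ℕ} {κ : Type} [Fintype κ] [DecidableEq κ]

/-- the complex matrix of a hermitian matrix at a place -/
def Gm (R : RData K D n) (H : Matrix κ κ D) : Matrix (κ × Fin n) (κ × Fin n) ℂ :=
  big κ R.f H * blk fun _ : κ => R.A

theorem big_star (R : RData K D n) (Y : Matrix κ κ D) :
    big κ R.f Yᴴ * (blk fun _ : κ => R.A) = (blk fun _ : κ => R.A) * (big κ R.f Y)ᴴ := by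
  have h1 : (blk fun _ : κ => R.A) * (big κ R.f Y)ᴴ = (big κ R.f Y * blk fun _ : κ => R.A)ᴴ := by
    rw [conjTranspose_mul, blk_conj, R.hA]
  ext x y
  rw [big_mul_blk, conjTranspose_apply, R.star_f, h1, conjTranspose_apply, big_mul_blk,
    ← conjTranspose_apply, conjTranspose_mul, R.hA]

theorem Gm_conj (R : RData K D n) (Y H : Matrix κ κ D) :
    big κ R.f Y * Gm R H * (big κ R.f Y)ᴴ = Gm R (Y * H * Yᴴ) := by
  rw [Gm, Gm, map_mul, map_mul, mul_assoc _ (big κ R.f Yᴴ), big_star]
  simp only [mul_assoc]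

theorem Gm_diag (R : RData K D n) (c : κ → D) :
    Gm R (diagonal c) = blk fun i => R.f (c i) * R.A := by
  rw [Gm, big_diagonal, blk_mul]

end sig

end Vale.Agent.P011Z.Cl.Lanx

end
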