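import Vale.Agent.P011.T2.Descent

/-!
Hermitian forms over a division ring with an involution of the second kind: orthogonal bases.
-/

open Module

namespace Vale.Agent.P011Z.Cl.Lanx

open Vale.Agent.P011.T2 (HF)

variable {D : Type} [DivisionRing D] [StarRing D]

/-- There is a central skew element, and the characteristic is not two. -/
def Skew (D : Type) [DivisionRing D] [StarRing D] : Prop :=
  (2 : D) ≠ 0 ∧ ∃ θ : D, θ ≠ 0 ∧ star θ = -θ ∧ ∀ x, θ * x = x * θ

section one

variable {V : Type} [AddCommGroup V] [Module D V] (B : HF D V)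

/-- restriction to a subspace -/
def sub (U : Submodule D V) : HF D U where
  h x y := B.h x y
  add_left x y z := B.add_left x y z
  smul_left a x y := B.smul_left a x y
  star_h x y := B.star_h x y

theorem exists_aniso (hS : Skew D) (hB : B.Nondeg) {v : V} (hv : v ≠ 0) : ∃ x, B.h x x ≠ 0 := by
  obtain ⟨h2, θ, hθ0, hθ, hc⟩ := hS
  by_contra hcon
  push Not at hcon
  refine hv (hB v fun y => ?_)
  have h1 : ∀ x y, B.h x y + star (B.h x y) = 0 := by
    intro x y
    have h := hcon (x + y)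
    rw [B.add_left, B.add_right, B.add_right, hcon, hcon, zero_add, add_zero] at h
    rw [B.star_h]
    exact h
  have h3 := h1 (θ • v) y
  have h4 : star (B.h v y) = -B.h v y := eq_neg_of_add_eq_zero_right (h1 v y)
  rw [B.smul_left, star_mul, hθ, h4, neg_mul_neg, ← hc, ← two_mul] at h3
  exact (mul_eq_zero.1 ((mul_eq_zero.1 h3).resolve_left h2)).resolve_left hθ0

theorem perp_mem {x : V} (hx : B.h x x ≠ 0) (y : V) :
    y - (B.h y x * (B.h x x)⁻¹) • x ∈ LinearMap.ker (B.lin x) := by
  rw [LinearMap.mem_ker, B.lin_apply, B.sub_left, B.smul_left, inv_mul_cancel_right₀ hx, sub_self]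

theorem perp_nondeg (hB : B.Nondeg) {x : V} (hx : B.h x x ≠ 0) :
    (sub B (LinearMap.ker (B.lin x))).Nondeg := by
  rintro ⟨w, hw⟩ h
  have hw' : B.h w x = 0 := hw
  refine Subtype.ext (hB w fun y => ?_)
  have h1 : B.h w (y - (B.h y x * (B.h x x)⁻¹) • x) = 0 := h ⟨_, perp_mem B hx y⟩
  rwa [B.sub_right, B.smul_right, hw', zero_mul, sub_zero] at h1

theorem finrank_perp [FiniteDimensional D V] {x : V} (hx : B.h x x ≠ 0) :
    finrank D (LinearMap.ker (B.lin x)) + 1 = finrank D V := by
  have h1 := LinearMap.finrank_range_add_finrank_ker (B.lin x)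
  have h2 : LinearMap.range (B.lin x) = ⊤ := by
    rw [LinearMap.range_eq_top]
    intro d
    exact ⟨(d * (B.h x x)⁻¹) • x, by rw [B.lin_apply, B.smul_left, inv_mul_cancel_right₀ hx]⟩
  rw [h2, finrank_top, Module.finrank_self] at h1
  omega

/-- orthogonal families with given values -/
def Orth {κ : Type} [DecidableEq κ] (v : κ → V) (c : κ → D) : Prop :=
  ∀ i j, B.h (v i) (v j) = Matrix.diagonal c i j

theorem Orth.cons {r : ℕ} {x : V} {v : Fin r → LinearMap.ker (B.lin x)} {c : Fin r → D}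
    (h : Orth (sub B (LinearMap.ker (B.lin x))) v c) :
    Orth B (Fin.cons x fun i => (v i : V) : Fin (r + 1) → V) (Fin.cons (B.h x x) c) := by
  intro i j
  have h1 : ∀ k, B.h (v k) x = 0 := fun k => (v k).2
  refine Fin.cases ?_ (fun i => ?_) i <;> refine Fin.cases ?_ (fun j => ?_) j
  · simp
  · rw [Matrix.diagonal_apply_ne _ (Fin.succ_ne_zero j).symm, Fin.cons_zero, Fin.cons_succ,
      ← B.star_h, h1, star_zero]
  · rw [Matrix.diagonal_apply_ne _ (Fin.succ_ne_zero i), Fin.cons_zero, Fin.cons_succ, h1]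
  · have h2 : B.h (v i) (v j) = Matrix.diagonal c i j := h i j
    rw [Fin.cons_succ, Fin.cons_succ, h2, Matrix.diagonal_apply, Matrix.diagonal_apply]
    simp

theorem Orth.star {κ : Type} [DecidableEq κ] {v : κ → V} {c : κ → D} (h : Orth B v c) (i : κ) :
    star (c i) = c i := by
  have h1 := h i i
  rw [Matrix.diagonal_apply_eq] at h1
  rw [← h1, B.star_h]

theorem Orth.indep {κ : Type} [Fintype κ] [DecidableEq κ] {v : κ → V} {c : κ → D}
    (h : Orth B v c) (hc : ∀ i, c i ≠ 0) : LinearIndependent D v := by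
  rw [Fintype.linearIndependent_iff]
  intro a ha i
  have h1 : B.h (∑ j, a j • v j) (v i) = 0 := by rw [ha, B.zero_left]
  rw [B.sum_left, Finset.sum_eq_single i] at h1
  · rw [B.smul_left, h, Matrix.diagonal_apply_eq] at h1
    exact (mul_eq_zero.1 h1).resolve_right (hc i)
  · intro j _ hj
    rw [B.smul_left, h, Matrix.diagonal_apply_ne _ hj, mul_zero]
  · intro hi
    exact absurd (Finset.mem_univ i) hi

theorem Orth.span [FiniteDimensional D V] {r : ℕ} {v : Fin r → V} {c : Fin r → D}
    (h : Orth B v c) (hc : ∀ i, c i ≠ 0) (hr : finrank D V = r) (u : V) :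
    ∃ y : Fin r → D, u = ∑ j, y j • v j := by
  have h1 := (h.indep B hc).span_eq_top_of_card_eq_finrank' (by rw [Fintype.card_fin, hr])
  have h2 : u ∈ Submodule.span D (Set.range v) := by rw [h1]; exact Submodule.mem_top
  obtain ⟨y, hy⟩ := (Submodule.mem_span_range_iff_exists_fun D).1 h2
  exact ⟨y, hy.symm⟩

theorem Orth.nondeg [FiniteDimensional D V] {r : ℕ} {v : Fin r → V} {c : Fin r → D}
    (h : Orth B v c) (hc : ∀ i, c i ≠ 0) (hr : finrank D V = r) : B.Nondeg := by
  intro x hx
  obtain ⟨y, rfl⟩ := h.span B hc hr x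
  refine Finset.sum_eq_zero fun i _ => ?_
  have h1 := hx (v i)
  rw [B.sum_left, Finset.sum_eq_single i] at h1
  · rw [B.smul_left, h, Matrix.diagonal_apply_eq] at h1
    rw [(mul_eq_zero.1 h1).resolve_right (hc i), zero_smul]
  · intro j _ hj
    rw [B.smul_left, h, Matrix.diagonal_apply_ne _ hj, mul_zero]
  · intro hi
    exact absurd (Finset.mem_univ i) hi

/-- the Gram matrix after a change of the family -/
theorem gram_comb {κ μ : Type} [Fintype κ] {v : κ → V} {H : Matrix κ κ D}
    (h : ∀ i j, B.h (v i) (v j) = H i j) (Y : Matrix μ κ D) (i j : μ) :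
    B.h (∑ k, Y i k • v k) (∑ k, Y j k • v k) = (Y * H * Y.conjTranspose) i j := by
  rw [B.sum_right, Matrix.mul_apply]
  refine Finset.sum_congr rfl fun l _ => ?_
  rw [B.smul_right, B.sum_left, Matrix.mul_apply, Matrix.conjTranspose_apply]
  congr 1
  exact Finset.sum_congr rfl fun k _ => by rw [B.smul_left, h]

/-- isotropic forms are universal -/
theorem univ_iso (h2 : (2 : D) ≠ 0) (hB : B.Nondeg) {x : V} (hx : x ≠ 0) (h0 : B.h x x = 0)
    {e : D} (he : star e = e) : ∃ y, B.h y y = e := by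
  obtain ⟨y, hy⟩ : ∃ y, B.h x y ≠ 0 := by
    by_contra hcon
    push Not at hcon
    exact hx (hB x hcon)
  obtain ⟨a, ha⟩ : ∃ a : D, a = 2⁻¹ * (e - B.h y y) := ⟨_, rfl⟩
  have hc : ∀ z : D, (2 : D)⁻¹ * z = z * 2⁻¹ := fun z =>
    (Commute.inv_left₀ (Commute.ofNat_left 2 z)).eq
  have hs : star a = a := by
    have h3 : star (2 : D) = 2 := by
      rw [← one_add_one_eq_two, star_add, star_one]
    rw [ha, star_mul, star_inv₀, h3, star_sub, he, B.star_h, hc]
  refine ⟨y + (a * (B.h x y)⁻¹) • x, ?_⟩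
  have h4 : B.h ((a * (B.h x y)⁻¹) • x) y = a := by
    rw [B.smul_left, inv_mul_cancel_right₀ hy]
  rw [B.add_left, B.add_right, B.add_right, h4, ← B.star_h ((a * (B.h x y)⁻¹) • x) y, h4, hs,
    B.smul_left, B.smul_right, h0, zero_mul, mul_zero, add_zero, add_assoc, ← two_mul, ha,
    mul_inv_cancel_left₀ h2, add_sub_cancel]

end one

theorem exists_orth (hS : Skew D) : ∀ (r : ℕ) (V : Type) [AddCommGroup V] [Module D V]
    [FiniteDimensional D V] (B : HF D V), B.Nondeg → finrank D V = r →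
    ∃ (v : Fin r → V) (c : Fin r → D), Orth B v c ∧ ∀ i, c i ≠ 0 := by
  intro r
  induction r with
  | zero => exact fun V _ _ _ B _ _ => ⟨Fin.elim0, Fin.elim0, fun i => i.elim0, fun i => i.elim0⟩
  | succ r ih =>
    intro V _ _ _ B hB hr
    have : Nontrivial V := Module.nontrivial_of_finrank_pos (R := D) (by omega)
    obtain ⟨v, hv⟩ := exists_ne (0 : V)
    obtain ⟨x, hx⟩ := exists_aniso B hS hB hv
    obtain ⟨w, c, h1, h2⟩ := ih _ (sub B (LinearMap.ker (B.lin x))) (perp_nondeg B hB hx)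
      (by have := finrank_perp B hx; omega)
    exact ⟨_, _, h1.cons B, fun i => Fin.cases hx h2 i⟩

end Vale.Agent.P011Z.Cl.Lanx
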