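import Vale.Agent.P011.Tpl.H541.Sg
import Vale.Agent.P011.RP.Universal
import Vale.Agent.P011Z.Cl.Lan.Big
import Vale.Agent.P011Z.Cl.Lan.Inv

/-!
Signatures of diagonal forms over a division algebra.
-/

open Matrix Module

set_option linter.unusedSectionVars false

noncomputable section

namespace Vale.Agent.P011Z.Cl.Lanx

open Vale.Agent.P011.RP Vale.Agent.P011.Tpl.H541

variable {K D : Type} [Field K] [StarRing K] [DivisionRing D] [StarRing D] [Algebra K D]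
  [StarModule K D] [FiniteDimensional K D] [Algebra.IsCentral K D] {n : ℕ} {κ : Type} [Fintype κ]
  [DecidableEq κ]

theorem sig_blk {G : κ → Matrix (Fin n) (Fin n) ℂ} {p : κ → ℕ} (h : ∀ i, Sig (G i) (p i)) :
    Sig (blk G) (∑ i, p i) := by
  choose T η hT h1 h2 using h
  refine ⟨blk T, fun x => η x.1 x.2, blk_unit hT, ?_, ?_⟩
  · rw [blk_conj, blk_mul, blk_mul]
    simp only [h1]
    exact comp_diagonal_diagonal _
  · simp only [← h2, Fintype.card_subtype, Finset.card_filter]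
    exact Fintype.sum_prod_type _

/-- the signature of a symmetric element -/
def sg (R : RData K D n) (c : D) : ℕ := Classical.epsilon (Sig (R.f c * R.A))

theorem sig_sg (R : RData K D n) {c : D} (hc : star c = c) (h0 : c ≠ 0) :
    Sig (R.f c * R.A) (sg R c) :=
  Classical.epsilon_spec (sig_exists (R.isHermitian hc) ((f_unit' R h0).mul R.unit))

theorem sig_Gm (R : RData K D n) {c : κ → D} (hc : ∀ i, star (c i) = c i) (h0 : ∀ i, c i ≠ 0) :
    Sig (Gm R (diagonal c)) (∑ i, sg R (c i)) := by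
  rw [Gm_diag]
  exact sig_blk fun i => sig_sg R (hc i) (h0 i)

theorem sig_near {ι : Type} [Fintype ι] [DecidableEq ι] {G : Matrix ι ι ℂ} {p : ℕ} (h : Sig G p) :
    ∃ η : ℝ, 0 < η ∧ ∀ M : Matrix ι ι ℂ, M.IsHermitian → (∀ a b, ‖M a b - G a b‖ < η) →
      Sig M p := by
  obtain ⟨η, hη, h1⟩ := herm_near h.isHermitian h.isUnit
  refine ⟨η, hη, fun M hM hb => ?_⟩
  obtain ⟨Q, hQ, h2⟩ := h1 (M - G) (hM.sub h.isHermitian) hb
  exact h.congr hQ (by rw [h2, add_sub_cancel])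

variable {Ω : Type} [Field Ω] [Algebra K Ω] (f : D →ₐ[K] Matrix (Fin n) (Fin n) Ω)

/-- Two hermitian matrices have the same invariants. -/
def Rel (H H' : Matrix κ κ D) : Prop :=
  (∃ z : K, z ≠ 0 ∧ (bigA κ f H').det = algebraMap K Ω (z * star z) * (bigA κ f H).det) ∧
    ∀ R : RData K D n, ∃ Q, IsUnit Q ∧ Q * Gm R H * Qᴴ = Gm R H'

/-- Two diagonal forms have the same invariants. -/
def Inv (c e : κ → D) : Prop :=
  (∃ z : K, z ≠ 0 ∧ ∏ i, (f (e i)).det = algebraMap K Ω (z * star z) * ∏ i, (f (c i)).det) ∧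
    ∀ R : RData K D n, ∑ i, sg R (c i) = ∑ i, sg R (e i)

variable {f}

theorem det_diag (c : κ → D) : (bigA κ f (diagonal c)).det = ∏ i, (f (c i)).det := by
  rw [bigA_apply, big_diagonal, det_blk]
  rfl

theorem rel_iff {c e : κ → D} (hc : ∀ i, star (c i) = c i) (hc0 : ∀ i, c i ≠ 0)
    (he : ∀ i, star (e i) = e i) (he0 : ∀ i, e i ≠ 0) :
    Rel f (diagonal c) (diagonal e) ↔ Inv f c e := by
  rw [Rel, Inv, det_diag, det_diag]
  refine and_congr Iff.rfl (forall_congr' fun R => ⟨fun ⟨Q, hQ, h⟩ => ?_, fun h => ?_⟩)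
  · exact ((sig_Gm R hc hc0).congr hQ h).unique (sig_Gm R he he0)
  · exact (sig_Gm R hc hc0).cong (h ▸ sig_Gm R he he0)

theorem Rel.tr {H H₁ H₂ : Matrix κ κ D} (h₁ : Rel f H H₁) (h₂ : Rel f H H₂) : Rel f H₁ H₂ := by
  obtain ⟨⟨z, hz, h1⟩, h2⟩ := h₁
  obtain ⟨⟨w, hw, h3⟩, h4⟩ := h₂
  refine ⟨⟨w * z⁻¹, mul_ne_zero hw (inv_ne_zero hz), ?_⟩, fun R => ?_⟩
  · have hz' : star z ≠ 0 := star_ne_zero.2 hz
    rw [h1, h3, ← mul_assoc, ← map_mul, star_mul, star_inv₀]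
    congr 2
    field_simp
  · obtain ⟨_, ⟨⟨Q, P, hQP, hPQ⟩, rfl⟩, h5⟩ := h2 R
    obtain ⟨S, hS, h6⟩ := h4 R
    refine ⟨S * P, hS.mul ⟨⟨P, Q, hPQ, hQP⟩, rfl⟩, ?_⟩
    have h7 : Qᴴ * Pᴴ = 1 := by rw [← conjTranspose_mul, hPQ, conjTranspose_one]
    rw [← h5, ← h6, conjTranspose_mul]
    calc S * P * (Q * Gm R H * Qᴴ) * (Pᴴ * Sᴴ) = S * (P * Q) * Gm R H * (Qᴴ * Pᴴ) * Sᴴ := by
          simp only [mul_assoc]
      _ = _ := by rw [hPQ, h7, mul_one, mul_one]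

theorem unit_of_conj {Y H G : Matrix κ κ D} (K : Type) [Field K] [Algebra K D]
    [FiniteDimensional K D] (h : Y * H * Yᴴ = G) (hG : IsUnit G) : IsUnit Y := by
  obtain ⟨⟨G, P, hGP, hPG⟩, rfl⟩ := hG
  refine unit_of_left (Y := H * Yᴴ * P) K ?_
  rw [← mul_assoc, ← mul_assoc, h]
  exact hGP

theorem rel_conj (hn : 0 < n) (hdeg : finrank K D = n ^ 2) (hG : Gal K Ω) {Y H G : Matrix κ κ D}
    (h : Y * H * Yᴴ = G) (hu : IsUnit G) : Rel f H G := by
  have hY := unit_of_conj K h hu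
  obtain ⟨z, h1, h2⟩ := exists_nrd hn hdeg hG f Y
  refine ⟨⟨z, fun h0 => ?_, ?_⟩, fun R => ⟨_, hY.map (big κ R.f), by rw [Gm_conj, h]⟩⟩
  · rw [h0, map_zero] at h1
    exact ((isUnit_iff_isUnit_det _).1 (hY.map (bigA κ f))).ne_zero h1
  · rw [← h, map_mul, map_mul, det_mul, det_mul, h1, h2, map_mul]
    ring

theorem Inv.cancel {r : ℕ} {a : D} (ha : a ≠ 0) {c e : Fin r → D}
    (h : Inv f (Fin.cons a c : Fin (r + 1) → D) (Fin.cons a e)) : Inv f c e := by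
  obtain ⟨⟨z, hz, h1⟩, h2⟩ := h
  refine ⟨⟨z, hz, ?_⟩, fun R => ?_⟩
  · simp only [Fin.prod_univ_succ, Fin.cons_zero, Fin.cons_succ] at h1
    refine mul_left_cancel₀
      ((isUnit_iff_isUnit_det _).1 ((isUnit_iff_ne_zero.2 ha).map f)).ne_zero ?_
    rw [h1]
    ring
  · have h3 := h2 R
    simp only [Fin.sum_univ_succ, Fin.cons_zero, Fin.cons_succ] at h3
    omega

theorem Inv.comp {μ : Type} [Fintype μ] [DecidableEq μ] (ε : μ ≃ κ) {c e : κ → D}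
    (h : Inv f (c ∘ ε) (e ∘ ε)) : Inv f c e := by
  obtain ⟨⟨z, hz, h1⟩, h2⟩ := h
  refine ⟨⟨z, hz, ?_⟩, fun R => ?_⟩
  · rw [← ε.prod_comp, ← ε.prod_comp fun i => (f (c i)).det]
    exact h1
  · rw [← ε.sum_comp, ← ε.sum_comp fun i => sg R (e i)]
    exact h2 R

end Vale.Agent.P011Z.Cl.Lanx

end
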