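import Vale.Agent.P011.Even.R2
import Vale.Agent.P011Z.Cl.Lan.Sg
import Vale.Agent.P011Z.Cl.Lan.Form

/-!
The theorem of Landherr for hermitian forms over a division algebra with a unitary involution.
-/

open Matrix Module Filter Topology

set_option linter.unusedSectionVars false

noncomputable section

namespace Vale.Agent.P011Z.Cl.Lanx

open Vale.Agent.P011.RP Vale.Agent.P011.Tpl.H541
open Vale.Agent.P011.T2 (HF)

variable {K D Ω : Type} [Field K] [NumberField K] [StarRing K] [DivisionRing D] [StarRing D]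
  [Algebra K D] [StarModule K D] [FiniteDimensional K D] [Algebra.IsCentral K D] [Field Ω]
  [Algebra K Ω] {n : ℕ} {κ : Type} [Fintype κ] [DecidableEq κ]
  {f : D →ₐ[K] Matrix (Fin n) (Fin n) Ω}

theorem skew (hK : ∃ k : K, star k ≠ k) : Skew D := by
  obtain ⟨k, hk⟩ := hK
  have hi := (algebraMap K D).injective
  refine ⟨fun h => two_ne_zero (hi (by rw [map_ofNat, h, map_zero]) : (2 : K) = 0),
    algebraMap K D (k - star k), (map_ne_zero _).2 (sub_ne_zero.2 hk.symm), ?_,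
    fun x => Algebra.commutes _ x⟩
  rw [← algebraMap_star_comm, star_sub, star_star, ← map_neg, neg_sub]

section rep

variable {V : Type} [AddCommGroup V] [Module D V] [FiniteDimensional D V] {B : HF D V}

/-- a vector whose value has the signatures of a given entry -/
theorem exists_cong (hK : ∃ k : K, star k ≠ k) (hn : 0 < n) (hdeg : finrank K D = n ^ 2)
    {v : κ → V} {c e : κ → D} (hv : Orth B v c) (hc : ∀ i, c i ≠ 0) (he : ∀ i, star (e i) = e i)
    (he0 : ∀ i, e i ≠ 0) (h : Rel f (diagonal c) (diagonal e)) (o : κ) :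
    ∃ x : V, x ≠ 0 ∧ ∀ R : RData K D n, R.CongAt (B.h x x) (e o) := by
  obtain ⟨ι, _, R, hR, hd⟩ := exists_family (D := D) hK hn hdeg
  choose Q hQ hQ' using fun i => h.2 (R i)
  choose η hη h1 using fun i => sig_near (sig_sg (R i) (he o) (he0 o))
  choose δ hδ h2 using fun i => near_conj (Gm (R i) (diagonal c)) (Q i) (hη i)
  have h3 : ∀ᶠ ε in 𝓝[>] (0 : ℝ), ∀ i, ε < δ i :=
    eventually_all.2 fun i => nhdsWithin_le_nhds (gt_mem_nhds (hδ i))
  obtain ⟨ε, h4, hε⟩ := (h3.and self_mem_nhdsWithin).exists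
  choose Y hY using fun j k : κ => hd (fun i => of fun a b => Q i (j, a) (k, b)) ε hε
  have h5 : ∀ i, Sig ((R i).f (B.h (∑ k, Y o k • v k) (∑ k, Y o k • v k)) * (R i).A)
      (sg (R i) (e o)) := by
    intro i
    refine h1 i _ ((R i).isHermitian (B.star_h _ _)) fun a b => ?_
    have h6 := h2 i (big κ (R i).f (of Y)) (fun x y => (hY x.1 y.1 i x.2 y.2).trans (h4 i))
      (o, a) (o, b)
    rw [Gm_conj, hQ', Gm, Gm, big_mul_blk, big_mul_blk, diagonal_apply_eq,
      ← gram_comb B hv (of Y)] at h6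
    exact h6
  by_cases hx : ∑ k, Y o k • v k = 0
  · refine ⟨v o, (hv.indep B hc).ne_zero o, of_family hn hdeg hR fun i => ?_⟩
    have h6 := (h5 i).isUnit
    have : Nonempty (Fin n) := ⟨⟨0, hn⟩⟩
    rw [hx, B.zero_left, map_zero, zero_mul] at h6
    exact absurd h6 not_isUnit_zero
  · exact ⟨_, hx, of_family hn hdeg hR fun i => (h5 i).cong (sig_sg (R i) (he o) (he0 o))⟩

theorem exists_rep (hK : ∃ k : K, star k ≠ k) (hn : 0 < n) (hdeg : finrank K D = n ^ 2) {r : ℕ}
    (hr : finrank D V = r + 1) {v : Fin (r + 1) → V} {c e : Fin (r + 1) → D} (hv : Orth B v c)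
    (hc : ∀ i, c i ≠ 0) (he : ∀ i, star (e i) = e i) (he0 : ∀ i, e i ≠ 0) (h : Inv f c e) :
    ∃ x : V, B.h x x = e 0 := by
  rcases r with _ | r
  · obtain ⟨⟨z, hz, h1⟩, h2⟩ := h
    obtain ⟨t, -, ht⟩ := Vale.Agent.P011.Even.hasR1 hK hn hdeg Ω f (c 0) (e 0) (hv.star B 0)
      (he 0) (hc 0) (he0 0) ⟨z, hz, by simpa using h1⟩ fun R =>
        (sig_sg R (hv.star B 0) (hc 0)).cong (by
          rw [show sg R (c 0) = sg R (e 0) by simpa using h2 R]
          exact sig_sg R (he 0) (he0 0))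
    refine ⟨t • v 0, ?_⟩
    rw [B.smul_left, B.smul_right, hv, diagonal_apply_eq, ht, mul_assoc]
  · by_cases hi : ∀ x, B.h x x = 0 → x = 0
    · obtain ⟨x, hx, h1⟩ := exists_cong hK hn hdeg hv hc he he0
        ((rel_iff (hv.star B) hc he he0).2 h) 0
      exact Vale.Agent.P011.Even.hasR2 hK hn hdeg V B hi (by omega) x hx _ (he 0) (he0 0) h1
    · push Not at hi
      obtain ⟨x, h1, h2⟩ := hi
      exact univ_iso B (skew hK).1 (hv.nondeg B hc hr) h2 h1 (he 0)

end rep

theorem unit_diag {c : κ → D} (hc : ∀ i, c i ≠ 0) : IsUnit (diagonal c) := by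
  refine ⟨⟨diagonal c, diagonal fun i => (c i)⁻¹, ?_, ?_⟩, rfl⟩ <;>
    simp [diagonal_mul_diagonal, hc]

theorem exists_basis (hK : ∃ k : K, star k ≠ k) (hn : 0 < n) (hdeg : finrank K D = n ^ 2)
    (hG : Gal K Ω) : ∀ (r : ℕ) (V : Type) [AddCommGroup V] [Module D V] [FiniteDimensional D V]
    (B : HF D V) (v : Fin r → V) (c e : Fin r → D), finrank D V = r → Orth B v c →
    (∀ i, c i ≠ 0) → (∀ i, star (e i) = e i) → (∀ i, e i ≠ 0) → Inv f c e →
    ∃ w, Orth B w e := by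
  intro r
  induction r with
  | zero => exact fun V _ _ _ B v c e _ _ _ _ _ _ => ⟨v, fun i => i.elim0⟩
  | succ r ih =>
    intro V _ _ _ B v c e hr hv hc he he0 h
    obtain ⟨x, hx⟩ := exists_rep hK hn hdeg hr hv hc he he0 h
    have hx0 : B.h x x ≠ 0 := by rw [hx]; exact he0 0
    have hr' : finrank D (LinearMap.ker (B.lin x)) = r := by
      have := finrank_perp B hx0
      omega
    obtain ⟨u, a, hu, ha⟩ := exists_orth (skew hK) r _ (sub B (LinearMap.ker (B.lin x)))
      (perp_nondeg B (hv.nondeg B hc hr) hx0) hr'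
    have h1 := hu.cons B
    have h2 : ∀ i, (Fin.cons (B.h x x) a : Fin (r + 1) → D) i ≠ 0 := fun i => Fin.cases hx0 ha i
    choose Y hY using fun i => hv.span B hc hr ((Fin.cons x fun i => (u i : V) : Fin (r + 1) → V) i)
    have h3 : of Y * diagonal c * (of Y)ᴴ = diagonal (Fin.cons (B.h x x) a) := by
      ext i j
      rw [← gram_comb B hv, ← h1 i j, hY i, hY j]
      rfl
    have h4 := (rel_iff (h1.star B) h2 he he0).1
      ((rel_conj (f := f) hn hdeg hG h3 (unit_diag h2)).tr ((rel_iff (hv.star B) hc he he0).2 h))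
    rw [← Fin.cons_self_tail e, hx] at h4
    obtain ⟨w, hw⟩ := ih _ _ u a (Fin.tail e) hr' hu ha (fun i => he _) (fun i => he0 _)
      (h4.cancel (he0 0))
    have h5 := hw.cons B
    rw [hx, Fin.cons_self_tail] at h5
    exact ⟨_, h5⟩

/-- the form of a hermitian matrix -/
def mf (H : Matrix κ κ D) (hH : Hᴴ = H) : HF D (κ → D) where
  h x y := ∑ b, (∑ a, x a * H a b) * star (y b)
  add_left x y z := by simp only [Pi.add_apply, add_mul, Finset.sum_add_distrib]
  smul_left a x y := by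
    simp only [Pi.smul_apply, smul_eq_mul, mul_assoc, Finset.mul_sum, Finset.sum_mul]
  star_h x y := by
    simp only [star_sum, star_mul, star_star, Finset.sum_mul]
    rw [Finset.sum_comm]
    refine Finset.sum_congr rfl fun b _ => Finset.sum_congr rfl fun a _ => ?_
    rw [← conjTranspose_apply, hH, mul_assoc]

theorem mf_orth {H : Matrix κ κ D} {hH : Hᴴ = H} {r : ℕ} (ε : κ ≃ Fin r) {v : Fin r → κ → D}
    {c : Fin r → D} (h : Orth (mf H hH) v c) :
    of (v ∘ ε) * H * (of (v ∘ ε))ᴴ = diagonal (c ∘ ε) := by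
  ext i j
  rw [← submatrix_diagonal_equiv]
  exact h (ε i) (ε j)

theorem mf_nondeg {H : Matrix κ κ D} (hH : Hᴴ = H) (hu : IsUnit H) : (mf H hH).Nondeg := by
  intro x hx
  obtain ⟨⟨H, P, hHP, hPH⟩, rfl⟩ := hu
  have h1 : x ᵥ* H = 0 := by
    funext b
    have h2 : ∑ k, (∑ a, x a * H a k) * star ((Pi.single b 1 : κ → D) k) = 0 := hx _
    rw [Finset.sum_eq_single b, Pi.single_eq_same, star_one, mul_one] at h2
    · exact h2
    · intro k _ hk
      rw [Pi.single_eq_of_ne hk, star_zero, mul_zero]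
    · exact fun h => absurd (Finset.mem_univ b) h
  rw [← vecMul_one x, ← hHP, ← vecMul_vecMul, h1, zero_vecMul]

/-- The theorem of Landherr over a division algebra. -/
theorem lanD {K D Ω : Type} [Field K] [NumberField K] [StarRing K] [DivisionRing D] [StarRing D]
    [Algebra K D] [StarModule K D] [FiniteDimensional K D] [Algebra.IsCentral K D] [Field Ω]
    [Algebra K Ω] {n : ℕ} {κ : Type} [Fintype κ] [DecidableEq κ] (hK : ∃ k : K, star k ≠ k)
    (hn : 0 < n) (hdeg : finrank K D = n ^ 2) (hG : Gal K Ω)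
    (f : D →ₐ[K] Matrix (Fin n) (Fin n) Ω) {H H' : Matrix κ κ D} (hH : Hᴴ = H) (hH' : H'ᴴ = H')
    (hu : IsUnit H) (hu' : IsUnit H')
    (hd : ∃ z : K, z ≠ 0 ∧ (bigA κ f H').det = algebraMap K Ω (z * star z) * (bigA κ f H).det)
    (hr : ∀ R : RData K D n, ∃ Q, IsUnit Q ∧ Q * Gm R H * Qᴴ = Gm R H') :
    ∃ Y, IsUnit Y ∧ Y * H * Yᴴ = H' := by
  have hk : finrank D (κ → D) = Fintype.card κ := Module.finrank_fintype_fun_eq_card D
  let ε := Fintype.equivFin κ
  obtain ⟨v, c, hv, hc⟩ := exists_orth (skew hK) _ _ _ (mf_nondeg hH hu) hk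
  obtain ⟨u, e, hw, he⟩ := exists_orth (skew hK) _ _ _ (mf_nondeg hH' hu') hk
  have h0 : Rel f H H' := ⟨hd, hr⟩
  have hc' := unit_diag (c := c ∘ ε) fun i => hc _
  have he' := unit_diag (c := e ∘ ε) fun i => he _
  have h1 := (h0.tr (rel_conj hn hdeg hG (mf_orth ε hv) hc')).tr
    (rel_conj hn hdeg hG (mf_orth ε hw) he')
  obtain ⟨w, h2⟩ := exists_basis hK hn hdeg hG _ _ _ v c e hk hv hc (hw.star _) he
    (((rel_iff (fun i => hv.star _ _) (fun i => hc _) (fun i => hw.star _ _)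
      fun i => he _).1 h1).comp ε)
  have h3 := mf_orth ε h2
  have h4 := unit_of_conj K h3 he'
  obtain ⟨⟨S, P, hSP, hPS⟩, hS⟩ := unit_of_conj K (mf_orth ε hw) he'
  refine ⟨P * of (w ∘ ε), IsUnit.mul ⟨⟨P, S, hPS, hSP⟩, rfl⟩ h4, ?_⟩
  have h5 : Sᴴ * Pᴴ = 1 := by rw [← conjTranspose_mul, hPS, conjTranspose_one]
  rw [← mf_orth ε hw, ← hS] at h3
  calc P * of (w ∘ ε) * H * (P * of (w ∘ ε))ᴴ = P * (of (w ∘ ε) * H * (of (w ∘ ε))ᴴ) * Pᴴ := by
        rw [conjTranspose_mul]
        simp only [mul_assoc]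
    _ = (P * S) * H' * (Sᴴ * Pᴴ) := by
        rw [h3]
        simp only [mul_assoc]
    _ = H' := by rw [hPS, h5, one_mul, mul_one]

end Vale.Agent.P011Z.Cl.Lanx

end
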